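import Vale.Agent.P027.R3.H18.Alpha

set_option linter.all false

/-! Integrality at `r` from a Frobenius element (N1a). -/

namespace Vale.Agent.P027.T3

open Vale.Agent.P027 Module

variable {p : ℕ} [hp : Fact p.Prime] {K : Type} [Field K] [NumberField K]

/-- divisibility by `r` in the ring of integers -/
def Dv (r : ℕ) (x : K) : Prop := ∃ y : K, IsIntegral ℤ y ∧ x = r * y

theorem Dv.mul {r : ℕ} {x y : K} (hx : Dv r x) (hy : IsIntegral ℤ y) : Dv r (x * y) := by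
  obtain ⟨z, hz, rfl⟩ := hx
  exact ⟨z * y, hz.mul hy, by ring⟩

theorem Dv.add {r : ℕ} {x y : K} (hx : Dv r x) (hy : Dv r y) : Dv r (x + y) := by
  obtain ⟨z, hz, rfl⟩ := hx
  obtain ⟨w, hw, rfl⟩ := hy
  exact ⟨z + w, hz.add hw, by ring⟩

theorem Dv.sub {r : ℕ} {x y : K} (hx : Dv r x) (hy : Dv r y) : Dv r (x - y) := by
  obtain ⟨z, hz, rfl⟩ := hx
  obtain ⟨w, hw, rfl⟩ := hy
  exact ⟨z - w, hz.sub hw, by ring⟩

theorem int_map {x : K} (g : K ≃ₐ[ℚ] K) (hx : IsIntegral ℤ x) : IsIntegral ℤ (g x) :=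
  hx.map (g.toAlgHom.restrictScalars ℤ)

theorem Dv.map {r : ℕ} {x : K} (g : K ≃ₐ[ℚ] K) (hx : Dv r x) : Dv r (g x) := by
  obtain ⟨z, hz, rfl⟩ := hx
  exact ⟨g z, int_map g hz, by rw [map_mul, map_natCast]⟩

/-- powers of congruent elements -/
theorem Dv.pow_sub {r : ℕ} {x y : K} (hx : IsIntegral ℤ x) (hy : IsIntegral ℤ y)
    (h : Dv r (x - y)) (n : ℕ) : Dv r (x ^ n - y ^ n) := by
  rw [← geom_sum₂_mul, mul_comm]
  refine h.mul (IsIntegral.sum _ fun i _ => (hx.pow i).mul (hy.pow _))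

section frob

variable {r : ℕ} {τ : K ≃ₐ[ℚ] K}
  (hfr : ∀ x : K, IsIntegral ℤ x → ∃ y, IsIntegral ℤ y ∧ τ x = x ^ r + r * y)
include hfr

theorem frob_one {x : K} (hx : IsIntegral ℤ x) : Dv r (τ x - x ^ r) := by
  obtain ⟨y, hy, h⟩ := hfr x hx
  exact ⟨y, hy, by rw [h]; ring⟩

theorem frob_pow (j : ℕ) {x : K} (hx : IsIntegral ℤ x) : Dv r ((τ ^ j) x - x ^ r ^ j) := by
  induction j with
  | zero =>
    refine ⟨0, isIntegral_zero, ?_⟩
    simp
  | succ j ih =>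
    have h1 : Dv r (τ ((τ ^ j) x - x ^ r ^ j)) := ih.map τ
    rw [map_sub, map_pow] at h1
    have h2 : Dv r ((τ x) ^ r ^ j - (x ^ r) ^ r ^ j) :=
      Dv.pow_sub (int_map τ hx) (hx.pow r) (frob_one hfr hx) _
    have h3 := h1.add h2
    have e : (τ ^ (j + 1)) x = τ ((τ ^ j) x) := by rw [pow_succ']; rfl
    rw [e, show x ^ r ^ (j + 1) = (x ^ r) ^ r ^ j by rw [← pow_mul, pow_succ']]
    have e2 : τ ((τ ^ j) x) - (x ^ r) ^ r ^ j =
        (τ ((τ ^ j) x) - τ x ^ r ^ j) + (τ x ^ r ^ j - (x ^ r) ^ r ^ j) := by ring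
    rw [e2]
    exact h3

theorem frob_reduced (hr : 2 ≤ r) {J : ℕ} (hJ : 0 < J) (hτ : τ ^ J = 1) {x : K}
    (hx : IsIntegral ℤ x) {N : ℕ} (h : Dv r (x ^ N)) : Dv r x := by
  have h1 := frob_pow hfr (J * N) hx
  rw [pow_mul, hτ, one_pow] at h1
  have h2 : N ≤ r ^ (J * N) := by
    have h3 : N < 2 ^ N := Nat.lt_two_pow_self
    have h4 : 2 ^ N ≤ r ^ N := Nat.pow_le_pow_left hr N
    have h5 : r ^ N ≤ r ^ (J * N) := Nat.pow_le_pow_right (by omega) (Nat.le_mul_of_pos_left N hJ)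
    omega
  have h3 : Dv r (x ^ r ^ (J * N)) := by
    obtain ⟨c, hc⟩ := Nat.exists_eq_add_of_le h2
    rw [hc, pow_add]
    exact h.mul (hx.pow c)
  have h4 := h1.add h3
  have e : (1 : K ≃ₐ[ℚ] K) x - x ^ r ^ (J * N) + x ^ r ^ (J * N) = x := by
    rw [sub_add_cancel]; rfl
  rwa [e] at h4

/-- N1a, case of an element inverted by an involution -/
theorem pint_two (hr : r.Prime) {J : ℕ} (hJ : 0 < J) (hτ : τ ^ J = 1) {j : ℕ} {t : K}
    (ht : t * (τ ^ j) t = 1) {s' : ℕ} : ∀ k : ℕ, IsIntegral ℤ ((r : K) ^ k * (s' * t)) →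
      IsIntegral ℤ ((s' : K) * t) := by
  intro k
  induction k with
  | zero => intro h; rwa [pow_zero, one_mul] at h
  | succ k ih =>
    intro h
    apply ih
    have hr0 : (r : K) ≠ 0 := by exact_mod_cast hr.ne_zero
    obtain ⟨x, hx⟩ : ∃ x, x = (r : K) ^ (k + 1) * (s' * t) := ⟨_, rfl⟩
    rw [← hx] at h
    have h1 : Dv r (x * (τ ^ j) x) := by
      refine ⟨(r : K) ^ (2 * k + 1) * s' ^ 2, ?_, ?_⟩
      · have h2 := isIntegral_algebraMap (R := ℤ) (A := K)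
          (x := ((r ^ (2 * k + 1) * s' ^ 2 : ℕ) : ℤ))
        simpa using h2
      · rw [hx, map_mul, map_mul, map_pow, map_natCast, map_natCast]
        calc (r : K) ^ (k + 1) * (s' * t) * ((r : K) ^ (k + 1) * (s' * (τ ^ j) t)) =
            (r : K) ^ (2 * k + 2) * s' ^ 2 * (t * (τ ^ j) t) := by ring
          _ = _ := by rw [ht]; ring
    have h2 : Dv r (x * x ^ r ^ j) := by
      have h3 := (frob_pow hfr j h).mul h
      have h4 := h1.sub h3
      have e : x * (τ ^ j) x - ((τ ^ j) x - x ^ r ^ j) * x = x * x ^ r ^ j := by ring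
      rwa [e] at h4
    rw [← pow_succ'] at h2
    obtain ⟨y, hy, hxy⟩ := frob_reduced hfr hr.two_le hJ hτ h h2
    have e : (r : K) ^ k * (s' * t) = y := by
      apply mul_left_cancel₀ hr0
      rw [← hxy, hx]; ring
    rw [e]; exact hy

/-- N1a, case of an element of norm one over a cubic subextension -/
theorem pint_three (hr : r.Prime) {J : ℕ} (hJ : 0 < J) (hτ : τ ^ J = 1) {j : ℕ} {t : K}
    (ht : t * (τ ^ j) t * (τ ^ (2 * j)) t = 1) {s' : ℕ} :
    ∀ k : ℕ, IsIntegral ℤ ((r : K) ^ k * (s' * t)) → IsIntegral ℤ ((s' : K) * t) := by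
  intro k
  induction k with
  | zero => intro h; rwa [pow_zero, one_mul] at h
  | succ k ih =>
    intro h
    apply ih
    have hr0 : (r : K) ≠ 0 := by exact_mod_cast hr.ne_zero
    obtain ⟨x, hx⟩ : ∃ x, x = (r : K) ^ (k + 1) * (s' * t) := ⟨_, rfl⟩
    rw [← hx] at h
    have h1 : Dv r (x * (τ ^ j) x * (τ ^ (2 * j)) x) := by
      refine ⟨(r : K) ^ (3 * k + 2) * s' ^ 3, ?_, ?_⟩
      · have h2 := isIntegral_algebraMap (R := ℤ) (A := K)
          (x := ((r ^ (3 * k + 2) * s' ^ 3 : ℕ) : ℤ))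
        simpa using h2
      · rw [hx]
        simp only [map_mul, map_pow, map_natCast]
        calc (r : K) ^ (k + 1) * (s' * t) * ((r : K) ^ (k + 1) * (s' * (τ ^ j) t)) *
              ((r : K) ^ (k + 1) * (s' * (τ ^ (2 * j)) t)) =
            (r : K) ^ (3 * k + 3) * s' ^ 3 * (t * (τ ^ j) t * (τ ^ (2 * j)) t) := by ring
          _ = _ := by rw [ht]; ring
    have h2 : Dv r (x * x ^ r ^ j * x ^ r ^ (2 * j)) := by
      have h3 := (frob_pow hfr (2 * j) h).mul (h.mul (int_map (τ ^ j) h))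
      have h5 := (frob_pow hfr j h).mul (h.mul (h.pow (r ^ (2 * j))))
      have h4 := (h1.sub h3).sub h5
      have e : x * (τ ^ j) x * (τ ^ (2 * j)) x -
          ((τ ^ (2 * j)) x - x ^ r ^ (2 * j)) * (x * (τ ^ j) x) -
          ((τ ^ j) x - x ^ r ^ j) * (x * x ^ r ^ (2 * j)) =
          x * x ^ r ^ j * x ^ r ^ (2 * j) := by ring
      rwa [e] at h4
    rw [← pow_succ', ← pow_add] at h2
    obtain ⟨y, hy, hxy⟩ := frob_reduced hfr hr.two_le hJ hτ h h2
    have e : (r : K) ^ k * (s' * t) = y := by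
      apply mul_left_cancel₀ hr0
      rw [← hxy, hx]; ring
    rw [e]; exact hy

end frob

theorem Fld.pow_eq_one_iff (D : Fld p K) {a : ℕ} : D.σ ^ a = 1 ↔ 2 * D.m ∣ a := by
  have hm : 0 < D.m := D.odd.pos
  constructor
  · intro h
    by_contra hcon
    have h1 : D.σ ^ (a % (2 * D.m)) = 1 := by
      rw [← h]
      conv_rhs => rw [← Nat.div_add_mod a (2 * D.m), pow_add, pow_mul, D.ord, one_pow, one_mul]
    exact D.inj (Nat.mod_lt _ (by omega))
      (Nat.pos_of_ne_zero fun h0 => hcon (Nat.dvd_of_mod_eq_zero h0)) h1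
  · rintro ⟨c, rfl⟩
    rw [pow_mul, D.ord, one_pow]

/-- a nontrivial automorphism has a power equal to the element of order two or to one of order
three -/
theorem Fld.power (D : Fld p K) {s k : ℕ} (hs : D.m = 3 * s) (hk : s = 3 ^ k) {τ : K ≃ₐ[ℚ] K}
    (hne : τ ≠ 1) : ∃ j, τ ^ j = D.σ ^ (3 * s) ∨ τ ^ j = D.σ ^ (2 * s) := by
  have hm : 0 < D.m := D.odd.pos
  obtain ⟨i, hi, rfl⟩ := D.gen τ
  have hi0 : 0 < i := Nat.pos_of_ne_zero fun h => hne (by rw [h, pow_zero])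
  have hs3 : 3 * s = 3 ^ (k + 1) := by rw [hk, pow_succ]; ring
  by_cases h2 : Odd i
  · -- the power `3 s`
    refine ⟨3 * s, Or.inl ?_⟩
    obtain ⟨c, hc⟩ := h2
    rw [← pow_mul, hc, show (2 * c + 1) * (3 * s) = (2 * D.m) * c + 3 * s by rw [hs]; ring, pow_add,
      pow_mul, D.ord, one_pow, one_mul]
  · rw [Nat.not_odd_iff_even] at h2
    obtain ⟨c, hc⟩ := h2
    -- `i = 2 c`, `c < 3 s = 3 ^ (k + 1)`
    have hc0 : c ≠ 0 := by omega
    obtain ⟨a, b, hb, hcab⟩ := Nat.exists_eq_pow_mul_and_not_dvd hc0 3 (by norm_num)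
    have ha : a ≤ k := by
      by_contra hcon
      have h3 : 3 ^ (k + 1) ≤ 3 ^ a := Nat.pow_le_pow_right (by norm_num) (by omega)
      have h4 : 3 ^ a ≤ c := by
        rw [hcab]
        refine Nat.le_mul_of_pos_right _ (Nat.pos_of_ne_zero ?_)
        rintro rfl
        exact hb (dvd_zero 3)
      omega
    -- `i * 3 ^ (k - a) = 2 s b`
    have h5 : i * 3 ^ (k - a) = 2 * s * b := by
      have h6 : 3 ^ a * 3 ^ (k - a) = 3 ^ k := by rw [← pow_add]; congr 1; omega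
      calc i * 3 ^ (k - a) = 2 * (3 ^ a * 3 ^ (k - a)) * b := by rw [hc, hcab]; ring
        _ = 2 * s * b := by rw [h6, hk]
    have hb3 : b % 3 = 1 ∨ b % 3 = 2 := by omega
    rcases hb3 with h3 | h3
    · refine ⟨3 ^ (k - a), Or.inr ?_⟩
      rw [← pow_mul, h5]
      have h6 : 2 * s * b = 2 * D.m * (b / 3) + 2 * s := by
        rw [hs]
        have := Nat.div_add_mod b 3
        rw [h3] at this
        calc 2 * s * b = 2 * s * (3 * (b / 3) + 1) := by rw [this]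
          _ = _ := by ring
      rw [h6, pow_add, pow_mul, D.ord, one_pow, one_mul]
    · refine ⟨3 ^ (k - a) * 2, Or.inr ?_⟩
      rw [← pow_mul, ← mul_assoc, h5]
      have h6 : 2 * s * b * 2 = 2 * D.m * (2 * (b / 3) + 1) + 2 * s := by
        rw [hs]
        have := Nat.div_add_mod b 3
        rw [h3] at this
        calc 2 * s * b * 2 = 2 * s * (3 * (b / 3) + 2) * 2 := by rw [this]
          _ = _ := by ring
      rw [h6, pow_add, pow_mul, D.ord, one_pow, one_mul]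

/-- N1a -/
theorem pint_of_frob (D : Fld p K) {s k : ℕ} (hs : D.m = 3 * s) (hk : s = 3 ^ k) {r : ℕ}
    (hr : r.Prime) {τ : K ≃ₐ[ℚ] K} (hne : τ ≠ 1)
    (hfr : ∀ x : K, IsIntegral ℤ x → ∃ y, IsIntegral ℤ y ∧ τ x = x ^ r + r * y) {t : K}
    (h1 : t * (D.σ ^ (3 * s)) t = 1)
    (h2 : t * (D.σ ^ (2 * s)) t * (D.σ ^ (4 * s)) t = 1) : Pint r t := by
  have hm : 0 < D.m := D.odd.pos
  have hJ : τ ^ (2 * D.m) = 1 := by
    obtain ⟨i, -, rfl⟩ := D.gen τ
    rw [← pow_mul, mul_comm, pow_mul, D.ord, one_pow]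
  have ht0 : t ≠ 0 := by
    rintro rfl
    rw [zero_mul] at h1
    exact zero_ne_one h1
  obtain ⟨d, hd0, hd⟩ : ∃ d : ℕ, d ≠ 0 ∧ IsIntegral ℤ ((d : K) * t) := by
    have halg : IsAlgebraic ℤ t :=
      (IsFractionRing.isAlgebraic_iff ℤ ℚ K).2 (Algebra.IsAlgebraic.isAlgebraic t)
    obtain ⟨y, hy0, hy⟩ := halg.exists_integral_multiple
    rw [zsmul_eq_mul] at hy
    obtain ⟨n, rfl | rfl⟩ := Int.eq_nat_or_neg y
    · refine ⟨n, by rintro rfl; exact hy0 rfl, ?_⟩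
      simpa using hy
    · refine ⟨n, by rintro rfl; exact hy0 rfl, ?_⟩
      have h3 := hy.neg
      simpa using h3
  obtain ⟨a, s', hs', hds⟩ := Nat.exists_eq_pow_mul_and_not_dvd hd0 r hr.ne_one
  refine ⟨s', hs', ?_⟩
  have hd' : IsIntegral ℤ ((r : K) ^ a * (s' * t)) := by
    rw [hds] at hd
    push_cast at hd
    rwa [← mul_assoc]
  obtain ⟨j, hj⟩ := D.power hs hk hne
  rcases hj with hj | hj
  · exact pint_two hfr hr (by omega) hJ (j := j) (by rw [hj]; exact h1) a hd'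
  · refine pint_three hfr hr (by omega) hJ (j := j) ?_ a hd'
    have e : τ ^ (2 * j) = D.σ ^ (4 * s) := by
      rw [mul_comm 2 j, pow_mul, hj, ← pow_mul, show 2 * s * 2 = 4 * s by ring]
    rw [e, hj]
    exact h2

end Vale.Agent.P027.T3
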