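import Mathlib

set_option linter.all false

/-! The embedding of the cyclotomic field in the `p`-adic numbers. -/

namespace Vale.Agent.P027.T3

open Polynomial

variable {p : ℕ} [hp : Fact p.Prime]

/-- roots of unity in the `p`-adic integers -/
theorem exists_root {N : ℕ} (hN : 0 < N) (h : N ∣ p - 1) : ∃ z : ℤ_[p], IsPrimitiveRoot z N := by
  classical
  obtain ⟨γ, hγ⟩ := IsCyclic.exists_generator (α := (ZMod p)ˣ)
  have hord : orderOf γ = p - 1 := by
    rw [orderOf_eq_card_of_forall_mem_zpowers hγ, Nat.card_eq_fintype_card, ZMod.card_units]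
  have hp1 : 1 < p := hp.out.one_lt
  have hg : orderOf (γ ^ (orderOf γ / N)) = N :=
    orderOf_pow_orderOf_div (by rw [hord]; omega) (by rw [hord]; exact h)
  obtain ⟨g, hgdef⟩ : ∃ g : (ZMod p)ˣ, g = γ ^ (orderOf γ / N) := ⟨_, rfl⟩
  rw [← hgdef] at hg
  have hgN : (g : ZMod p) ^ N = 1 := by
    have h1 : g ^ N = 1 := by rw [← hg]; exact pow_orderOf_eq_one g
    rw [← Units.val_pow_eq_pow_val, h1, Units.val_one]
  have hgmin : ∀ d, (g : ZMod p) ^ d = 1 → N ∣ d := by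
    intro d hd
    rw [← hg]
    apply orderOf_dvd_of_pow_eq_one
    apply Units.ext
    rw [Units.val_pow_eq_pow_val, hd, Units.val_one]
  obtain ⟨a, ha⟩ : ∃ a : ℤ_[p], PadicInt.toZMod a = (g : ZMod p) :=
    ⟨(((g : ZMod p).val : ℕ) : ℤ_[p]), by rw [map_natCast, ZMod.natCast_zmod_val]⟩
  have hlt : ∀ x : ℤ_[p], PadicInt.toZMod x = 0 ↔ ‖x‖ < 1 := by
    intro x
    rw [← RingHom.mem_ker, PadicInt.ker_toZMod, IsLocalRing.mem_maximalIdeal, mem_nonunits_iff,
      PadicInt.isUnit_iff]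
    have := PadicInt.norm_le_one x
    constructor
    · intro h1; exact lt_of_le_of_ne this h1
    · intro h1; exact h1.ne
  have hpN : (N : ZMod p) ≠ 0 := by
    intro h1
    rw [ZMod.natCast_eq_zero_iff] at h1
    have h2 : N ≤ p - 1 := Nat.le_of_dvd (by omega) h
    have h3 := Nat.le_of_dvd hN h1
    omega
  have haev : ∀ z : ℤ_[p], aeval z (X ^ N - 1 : ℤ[X]) = z ^ N - 1 := by
    intro z; simp
  have hder : ∀ z : ℤ_[p], aeval z (derivative (X ^ N - 1 : ℤ[X])) = N * z ^ (N - 1) := by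
    intro z; simp [derivative_X_pow]
  have h1 : ‖aeval a (X ^ N - 1 : ℤ[X])‖ < 1 := by
    rw [haev, ← hlt, map_sub, map_pow, ha, hgN, map_one, sub_self]
  have h2 : ‖aeval a (derivative (X ^ N - 1 : ℤ[X]))‖ = 1 := by
    rw [hder]
    refine le_antisymm (PadicInt.norm_le_one _) (not_lt.1 fun hcon => ?_)
    rw [← hlt, map_mul, map_pow, map_natCast, ha] at hcon
    rcases mul_eq_zero.1 hcon with h3 | h3
    · exact hpN h3
    · exact (Units.ne_zero g) (eq_zero_of_pow_eq_zero h3)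
  obtain ⟨z, hz1, hz2, -, -⟩ := hensels_lemma (F := (X ^ N - 1 : ℤ[X])) (a := a)
    (by rw [h2, one_pow]; exact h1)
  rw [haev] at hz1
  rw [h2] at hz2
  have hzN : z ^ N = 1 := sub_eq_zero.1 hz1
  have hza : PadicInt.toZMod z = (g : ZMod p) := by
    have h3 := (hlt _).2 hz2
    rw [map_sub, sub_eq_zero] at h3
    rw [h3, ha]
  refine ⟨z, ⟨hzN, ?_⟩⟩
  intro d hd
  apply hgmin
  rw [← hza, ← map_pow, hd, map_one]

/-- the embedding -/
theorem exists_phi {N : ℕ} (hN : 0 < N) (h : N ∣ p - 1) :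
    Nonempty (CyclotomicField N ℚ →+* ℚ_[p]) := by
  obtain ⟨z, hz⟩ := exists_root (p := p) hN h
  have hz' : IsPrimitiveRoot (z : ℚ_[p]) N :=
    hz.map_of_injective (f := PadicInt.Coe.ringHom) Subtype.val_injective
  have h1 : ((X ^ N - 1 : ℚ_[p][X])).Splits := X_pow_sub_one_splits hz'
  have h2 : ((cyclotomic N ℚ).map (algebraMap ℚ ℚ_[p])).Splits := by
    rw [map_cyclotomic]
    refine h1.of_dvd ?_ (cyclotomic.dvd_X_pow_sub_one N _)
    exact X_pow_sub_C_ne_zero hN (1 : ℚ_[p]) |> fun h3 => by simpa using h3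
  exact ⟨(SplittingField.lift (cyclotomic N ℚ) h2).toRingHom⟩

theorem exists_phi' {κ : ℕ} (h : p ≡ 1 [MOD 3 ^ κ]) :
    Nonempty (CyclotomicField (3 ^ κ) ℚ →+* ℚ_[p]) :=
  exists_phi (by positivity) ((Nat.modEq_iff_dvd' hp.out.one_lt.le).1 h.symm)

end Vale.Agent.P027.T3
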