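import Vale.Agent.P027.R3.H18.Pi

set_option linter.all false

/-! The cyclic group (N1c). -/

namespace Vale.Agent.P027.T3

open Vale.Agent.P027 Module IsDedekindDomain NumberField R2.H955 nonZeroDivisors

variable {p : ℕ} [hp : Fact p.Prime] {K : Type} [Field K] [NumberField K]

theorem out_iff_mem {x : K} : Out p x ↔ x ∈ TD.pint K p := Iff.rfl

theorem Out.mul' {x y : K} (hx : Out p x) (hy : Out p y) : Out p (x * y) :=
  (TD.pint K p).mul_mem hx hy

theorem Out.one' : Out p (1 : K) := (TD.pint K p).one_mem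

theorem Out.map' (g : K ≃ₐ[ℚ] K) {x : K} (hx : Out p x) : Out p (g x) := TD.pint_map g hx

/-- powers of `σ` applied in succession -/
theorem Fld.sig (D : Fld p K) (i j : ℕ) (x : K) :
    (D.σ ^ i) ((D.σ ^ j) x) = (D.σ ^ (i + j)) x := by
  rw [pow_add]; rfl

theorem Fld.sig_mod (D : Fld p K) (i : ℕ) (x : K) :
    (D.σ ^ i) x = (D.σ ^ (i % (2 * D.m))) x := by
  conv_lhs => rw [← Nat.div_add_mod i (2 * D.m), pow_add, pow_mul, D.ord, one_pow, one_mul]

theorem Fld.sig_add (D : Fld p K) (i : ℕ) (x : K) :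
    (D.σ ^ (i + 2 * D.m)) x = (D.σ ^ i) x := by
  rw [pow_add, D.ord, mul_one]

/-- the group -/
def TorG (D : Fld p K) (s : ℕ) : Set K := {t | Tor D s t}

theorem Tor.ne {D : Fld p K} {s : ℕ} {t : K} (h : Tor D s t) : t ≠ 0 := by
  rintro rfl
  have := h.2.1
  rw [zero_mul] at this
  exact zero_ne_one this

theorem Tor.one {D : Fld p K} {s : ℕ} : Tor D s (1 : K) := by
  refine ⟨Out.one', by simp, by simp, ?_⟩
  intro i _ _ _ _ _
  simp

theorem Tor.mul {D : Fld p K} {s : ℕ} {t u : K} (h : Tor D s t) (h' : Tor D s u) :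
    Tor D s (t * u) := by
  obtain ⟨h1, h2, h3, h4⟩ := h
  obtain ⟨g1, g2, g3, g4⟩ := h'
  refine ⟨h1.mul' g1, ?_, ?_, ?_⟩
  · rw [map_mul]
    calc t * u * ((D.σ ^ (3 * s)) t * (D.σ ^ (3 * s)) u) =
        (t * (D.σ ^ (3 * s)) t) * (u * (D.σ ^ (3 * s)) u) := by ring
      _ = 1 := by rw [h2, g2, one_mul]
  · rw [map_mul, map_mul]
    calc t * u * ((D.σ ^ (2 * s)) t * (D.σ ^ (2 * s)) u) *
        ((D.σ ^ (4 * s)) t * (D.σ ^ (4 * s)) u) =
        (t * (D.σ ^ (2 * s)) t * (D.σ ^ (4 * s)) t) *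
          (u * (D.σ ^ (2 * s)) u * (D.σ ^ (4 * s)) u) := by ring
      _ = 1 := by rw [h3, g3, one_mul]
  · intro i a b c d e
    rw [map_mul, map_mul, norm_mul, h4 i a b c d e, g4 i a b c d e, one_mul]

theorem Tor.out_inv {D : Fld p K} {s : ℕ} {t : K} (h : Tor D s t) : Out p t⁻¹ := by
  have h1 : t⁻¹ = (D.σ ^ (3 * s)) t := by
    rw [eq_comm, ← mul_left_inj' h.ne, inv_mul_cancel₀ h.ne, mul_comm]
    exact h.2.1
  rw [h1]
  exact h.1.map' _

theorem Tor.inv {D : Fld p K} {s : ℕ} {t : K} (h : Tor D s t) : Tor D s t⁻¹ := by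
  obtain ⟨h1, h2, h3, h4⟩ := id h
  refine ⟨h.out_inv, ?_, ?_, ?_⟩
  · rw [map_inv₀, ← mul_inv, h2, inv_one]
  · rw [map_inv₀, map_inv₀, ← mul_inv, ← mul_inv, h3, inv_one]
  · intro i a b c d e
    rw [map_inv₀, map_inv₀, norm_inv, h4 i a b c d e, inv_one]

theorem Tor.pow {D : Fld p K} {s : ℕ} {t : K} (h : Tor D s t) (n : ℕ) : Tor D s (t ^ n) := by
  induction n with
  | zero => rw [pow_zero]; exact Tor.one
  | succ n ih => rw [pow_succ]; exact ih.mul h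

theorem Tor.zpow {D : Fld p K} {s : ℕ} {t : K} (h : Tor D s t) (n : ℤ) : Tor D s (t ^ n) := by
  cases n with
  | ofNat n => rw [Int.ofNat_eq_natCast, zpow_natCast]; exact h.pow n
  | negSucc n => rw [zpow_negSucc]; exact (h.pow _).inv

/-- all absolute values are one -/
theorem Tor.norms {D : Fld p K} {s : ℕ} (hs : D.m = 3 * s) {t : K} (h : Tor D s t)
    (h0 : ‖D.φ t‖ = 1) : ∀ i < 2 * D.m, ‖D.φ ((D.σ ^ i) t)‖ = 1 := by
  obtain ⟨h1, h2, h3, h4⟩ := id h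
  have hm : 0 < D.m := D.odd.pos
  have hs0 : 0 < s := by omega
  have h3s : ‖D.φ ((D.σ ^ (3 * s)) t)‖ = 1 := by
    have := congrArg (fun x => ‖D.φ x‖) h2
    simp only [map_mul, norm_mul, map_one, norm_one, h0, one_mul] at this
    exact this
  have h4s : ‖D.φ ((D.σ ^ (4 * s)) t)‖ = 1 := h4 (4 * s) (by omega) (by omega) (by omega) (by omega)
    (by omega)
  have h2s : ‖D.φ ((D.σ ^ (2 * s)) t)‖ = 1 := by
    have := congrArg (fun x => ‖D.φ x‖) h3
    simp only [map_mul, norm_mul, map_one, norm_one, h0, one_mul, h4s, mul_one] at this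
    exact this
  have h5s : ‖D.φ ((D.σ ^ (5 * s)) t)‖ = 1 := by
    have := congrArg (fun x => ‖D.φ ((D.σ ^ (2 * s)) x)‖) h2
    simp only [map_mul, norm_mul, map_one, norm_one, D.sig, h2s, one_mul] at this
    rw [show 2 * s + 3 * s = 5 * s by ring] at this
    exact this
  intro i hi
  by_cases e0 : i = 0
  · rw [e0, pow_zero]; exact h0
  by_cases e2 : i = 2 * s
  · rw [e2]; exact h2s
  by_cases e3 : i = 3 * s
  · rw [e3]; exact h3s
  by_cases e5 : i = 5 * s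
  · rw [e5]; exact h5s
  exact h4 i hi e0 e2 e3 e5

/-- the kernel consists of integral elements of absolute value one -/
theorem Tor.kernel {D : Fld p K} {s : ℕ} (hs : D.m = 3 * s) {t : K} (h : Tor D s t)
    (h0 : ‖D.φ t‖ = 1) : IsIntegral ℤ t ∧ ∀ f : K →+* ℂ, ‖f t‖ = 1 := by
  haveI := D.gal
  refine ⟨?_, ?_⟩
  · refine TD.int_of_local D.φ h.1 ?_
    intro g
    obtain ⟨i, hi, rfl⟩ := D.gen g
    exact (h.norms hs h0 i hi).le
  · intro f
    have h1 := congrArg f h.2.1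
    rw [map_mul, map_one, ← hs, D.cm, Complex.mul_conj] at h1
    have h2 : Complex.normSq (f t) = 1 := by exact_mod_cast h1
    rw [Complex.normSq_eq_norm_sq] at h2
    have h3 : 0 ≤ ‖f t‖ := norm_nonneg _
    nlinarith

/-- a uniform exponent -/
theorem exists_exponent (K : Type) [Field K] [NumberField K] :
    ∃ ν : ℕ, 0 < ν ∧ ∀ x : K, IsIntegral ℤ x → (∀ f : K →+* ℂ, ‖f x‖ = 1) → x ^ ν = 1 := by
  classical
  have hfin := NumberField.Embeddings.finite_of_norm_le K ℂ 1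
  have hex : ∀ x : K, ∃ n : ℕ, 0 < n ∧ (IsIntegral ℤ x → (∀ f : K →+* ℂ, ‖f x‖ = 1) → x ^ n = 1) := by
    intro x
    by_cases h : IsIntegral ℤ x ∧ ∀ f : K →+* ℂ, ‖f x‖ = 1
    · obtain ⟨n, hn, hx⟩ := NumberField.Embeddings.pow_eq_one_of_norm_eq_one K ℂ h.1 h.2
      exact ⟨n, hn, fun _ _ => hx⟩
    · exact ⟨1, one_pos, fun h1 h2 => absurd ⟨h1, h2⟩ h⟩
  choose n hn hx using hex
  refine ⟨∏ x ∈ hfin.toFinset, n x, Finset.prod_pos fun x _ => hn x, ?_⟩
  intro x h1 h2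
  have hmem : x ∈ hfin.toFinset := by
    rw [Set.Finite.mem_toFinset]
    exact ⟨h1, fun f => (h2 f).le⟩
  obtain ⟨k, hk⟩ := Finset.dvd_prod_of_mem n hmem
  rw [hk, pow_mul, hx x h1 h2, one_pow]

/-- a nontrivial element -/
theorem exists_tor (D : Fld p K) {s : ℕ} (hs : D.m = 3 * s) : ∃ t, Tor D s t ∧ ‖D.φ t‖ < 1 := by
  obtain ⟨π, hint, hout, hlt, hone⟩ := exists_pi D
  have hm : 0 < D.m := D.odd.pos
  have hs0 : 0 < s := by omega
  have hπ0 : π ≠ 0 := by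
    rintro rfl
    have := hone s hs0 (by omega)
    simp at this
  obtain ⟨g, hg⟩ : ∃ g : ℕ → K, ∀ j, g j = (D.σ ^ (j * s)) π := ⟨_, fun _ => rfl⟩
  have hg6 : ∀ j, g (j + 6) = g j := by
    intro j
    rw [hg, hg, show (j + 6) * s = j * s + 2 * D.m by rw [hs]; ring, D.sig_add]
  have hgne : ∀ j, g j ≠ 0 := by
    intro j
    rw [hg]
    exact (map_ne_zero _).2 hπ0
  have hsg : ∀ i j, (D.σ ^ (i * s)) (g j) = g (i + j) := by
    intro i j
    rw [hg, hg, D.sig]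
    congr 2
    ring
  have houtπ : Out p π := ⟨0, by rw [pow_zero, one_mul]; exact hint⟩
  have hgout : ∀ j, Out p (g j) := by
    intro j
    rw [hg]; exact houtπ.map' _
  have hgout' : ∀ j, Out p (g j)⁻¹ := by
    intro j
    rw [hg, ← map_inv₀]; exact hout.map' _
  obtain ⟨t, ht⟩ : ∃ t, t = g 0 * g 1 * (g 3)⁻¹ * (g 4)⁻¹ := ⟨_, rfl⟩
  have hst : ∀ i, (D.σ ^ (i * s)) t = g i * g (i + 1) * (g (i + 3))⁻¹ * (g (i + 4))⁻¹ := by
    intro i
    rw [ht]
    simp only [map_mul, map_inv₀, hsg, add_zero]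
  -- absolute values
  have hnorm : ∀ i j, ¬ 2 * D.m ∣ i + j * s → ‖D.φ ((D.σ ^ i) (g j))‖ = 1 := by
    intro i j h
    rw [hg, D.sig, D.sig_mod]
    refine hone _ ?_ (Nat.mod_lt _ (by omega))
    exact Nat.pos_of_ne_zero fun h0 => h (Nat.dvd_of_mod_eq_zero h0)
  refine ⟨t, ⟨?_, ?_, ?_, ?_⟩, ?_⟩
  · rw [ht]
    exact (((hgout 0).mul' (hgout 1)).mul' (hgout' 3)).mul' (hgout' 4)
  · rw [hst 3, ht]
    norm_num
    rw [show g 6 = g 0 from hg6 0, show g 7 = g 1 from hg6 1]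
    have := hgne 0
    have := hgne 1
    have := hgne 3
    have := hgne 4
    field_simp
  · rw [hst 2, hst 4, ht]
    norm_num
    rw [show g 6 = g 0 from hg6 0, show g 7 = g 1 from hg6 1, show g 8 = g 2 from hg6 2]
    have := hgne 0
    have := hgne 1
    have := hgne 2
    have := hgne 3
    have := hgne 4
    have := hgne 5
    field_simp
  · intro i hi e0 e2 e3 e5
    rw [ht]
    simp only [map_mul, map_inv₀, norm_mul, norm_inv]
    rw [hnorm i 0, hnorm i 1, hnorm i 3, hnorm i 4]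
    · norm_num
    · rintro ⟨c, hc⟩
      rw [hs] at hc hi
      have h1 : c = 0 ∨ c = 1 ∨ 2 ≤ c := by omega
      rcases h1 with rfl | rfl | h1
      · omega
      · omega
      · have : 2 * (3 * s) * 2 ≤ 2 * (3 * s) * c := Nat.mul_le_mul_left _ h1
        omega
    · rintro ⟨c, hc⟩
      rw [hs] at hc hi
      have h1 : c = 0 ∨ c = 1 ∨ 2 ≤ c := by omega
      rcases h1 with rfl | rfl | h1
      · omega
      · omega
      · have : 2 * (3 * s) * 2 ≤ 2 * (3 * s) * c := Nat.mul_le_mul_left _ h1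
        omega
    · rintro ⟨c, hc⟩
      rw [hs] at hc hi
      have h1 : c = 0 ∨ c = 1 ∨ 2 ≤ c := by omega
      rcases h1 with rfl | rfl | h1
      · omega
      · omega
      · have : 2 * (3 * s) * 2 ≤ 2 * (3 * s) * c := Nat.mul_le_mul_left _ h1
        omega
    · rintro ⟨c, hc⟩
      rw [hs] at hc hi
      have h1 : c = 0 ∨ c = 1 ∨ 2 ≤ c := by omega
      rcases h1 with rfl | rfl | h1
      · omega
      · omega
      · have : 2 * (3 * s) * 2 ≤ 2 * (3 * s) * c := Nat.mul_le_mul_left _ h1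
        omega
  · have h1 : ∀ j, 0 < j → j < 6 → ‖D.φ (g j)‖ = 1 := by
      intro j hj hj6
      rw [hg]
      refine hone _ (Nat.mul_pos hj hs0) ?_
      rw [hs]
      nlinarith
    rw [ht]
    simp only [map_mul, map_inv₀, norm_mul, norm_inv]
    rw [h1 1 (by norm_num) (by norm_num), h1 3 (by norm_num) (by norm_num),
      h1 4 (by norm_num) (by norm_num), inv_one, mul_one, mul_one, mul_one, hg, zero_mul, pow_zero]
    exact hlt

/-- N1c: the cyclic group -/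
theorem exists_alpha (D : Fld p K) {s : ℕ} (hs : D.m = 3 * s) :
    ∃ (ν : ℕ) (α : K), 0 < ν ∧ Tor D s α ∧ ‖D.φ α‖ < 1 ∧
      ∀ z : K, (∃ j : ℤ, z = α ^ j) ↔ ∃ t, Tor D s t ∧ z = t ^ ν := by
  obtain ⟨ν, hν, hker⟩ := exists_exponent K
  obtain ⟨t₀, ht₀, ht₁⟩ := exists_tor D hs
  have hp1 : (1 : ℝ) < p := by exact_mod_cast hp.out.one_lt
  have hp0 : (p : ℝ) ≠ 0 := by positivity
  -- the group of values
  obtain ⟨H, hH⟩ : ∃ H : AddSubgroup ℤ, ∀ w, w ∈ H ↔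
      ∃ t, Tor D s t ∧ ‖D.φ t‖ = (p : ℝ) ^ (-w) := by
    refine ⟨{ carrier := {w | ∃ t, Tor D s t ∧ ‖D.φ t‖ = (p : ℝ) ^ (-w)},
              add_mem' := ?_, zero_mem' := ?_, neg_mem' := ?_ }, fun w => Iff.rfl⟩
    · rintro a b ⟨t, ht, hta⟩ ⟨u, hu, hub⟩
      refine ⟨t * u, ht.mul hu, ?_⟩
      rw [map_mul, norm_mul, hta, hub, ← zpow_add₀ hp0, neg_add]
    · exact ⟨1, Tor.one, by simp⟩
    · rintro a ⟨t, ht, hta⟩
      refine ⟨t⁻¹, ht.inv, ?_⟩
      rw [map_inv₀, norm_inv, hta, zpow_neg, neg_neg, inv_inv]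
  obtain ⟨a, ha⟩ := Int.subgroup_cyclic H
  have hmem : ∀ w, w ∈ H ↔ ∃ j : ℤ, w = j * a := by
    intro w
    rw [ha, AddSubgroup.mem_closure_singleton]
    constructor
    · rintro ⟨j, hj⟩
      exact ⟨j, by rw [← hj]; simp⟩
    · rintro ⟨j, hj⟩
      exact ⟨j, by rw [hj]; simp⟩
  have hval : ∀ t, Tor D s t → ∃ w : ℤ, ‖D.φ t‖ = (p : ℝ) ^ (-w) := by
    intro t ht
    exact ⟨_, Padic.norm_eq_zpow_neg_valuation ((map_ne_zero D.φ).2 ht.ne)⟩
  have ha0 : a ≠ 0 := by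
    rintro rfl
    obtain ⟨w, hw⟩ := hval t₀ ht₀
    obtain ⟨j, hj⟩ := (hmem w).1 ((hH w).2 ⟨t₀, ht₀, hw⟩)
    rw [mul_zero] at hj
    rw [hw, hj, neg_zero, zpow_zero] at ht₁
    exact lt_irrefl _ ht₁
  -- the generator
  have hγ : ∃ γ, Tor D s γ ∧ ‖D.φ γ‖ = (p : ℝ) ^ (-|a|) := by
    apply (hH _).1
    rw [hmem]
    rcases abs_choice a with h | h
    · exact ⟨1, by rw [h, one_mul]⟩
    · exact ⟨-1, by rw [h]; ring⟩
  obtain ⟨γ, hγ1, hγ2⟩ := hγ
  have habs : 0 < |a| := abs_pos.2 ha0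
  have hγlt : ‖D.φ γ‖ < 1 := by
    rw [hγ2]
    have := zpow_lt_zpow_right₀ hp1 (show -|a| < 0 by omega)
    simpa using this
  refine ⟨ν, γ ^ ν, hν, hγ1.pow ν, ?_, ?_⟩
  · rw [map_pow, norm_pow]
    exact pow_lt_one₀ (norm_nonneg _) hγlt hν.ne'
  · intro z
    constructor
    · rintro ⟨j, rfl⟩
      refine ⟨γ ^ j, hγ1.zpow j, ?_⟩
      rw [← zpow_natCast, ← zpow_natCast, ← zpow_mul, ← zpow_mul, mul_comm]
    · rintro ⟨t, ht, rfl⟩
      obtain ⟨w, hw⟩ := hval t ht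
      obtain ⟨j, hj⟩ : ∃ j : ℤ, w = j * |a| := by
        obtain ⟨j, hj⟩ := (hmem w).1 ((hH w).2 ⟨t, ht, hw⟩)
        rcases abs_choice a with h | h
        · exact ⟨j, by rw [h]; exact hj⟩
        · exact ⟨-j, by rw [h, hj]; ring⟩
      obtain ⟨u, hu⟩ : ∃ u, u = t * γ ^ (-j) := ⟨_, rfl⟩
      have hu1 : Tor D s u := by rw [hu]; exact ht.mul (hγ1.zpow _)
      have hu2 : ‖D.φ u‖ = 1 := by
        rw [hu, map_mul, map_zpow₀, norm_mul, norm_zpow, hw, hγ2, ← zpow_mul, ← zpow_add₀ hp0, hj]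
        have : -(j * |a|) + -|a| * -j = 0 := by ring
        rw [this, zpow_zero]
      obtain ⟨hu3, hu4⟩ := hu1.kernel hs hu2
      have hu5 := hker u hu3 hu4
      refine ⟨j, ?_⟩
      have hγ0 := hγ1.ne
      have e : t = u * γ ^ j := by
        rw [hu, mul_assoc, ← zpow_add₀ hγ0, neg_add_cancel, zpow_zero, mul_one]
      rw [e, mul_pow, hu5, one_mul, ← zpow_natCast, ← zpow_natCast, ← zpow_mul, ← zpow_mul,
        mul_comm]

end Vale.Agent.P027.T3
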