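import Mathlib

set_option linter.all false

/-! Coding of the integers by powers of `p`. -/

namespace Vale.Agent.P027.T3

/-- the code of a natural number -/
def codeN (p u e a : ℕ) : ℕ := p ^ (u * (a + e))

theorem codeN_inj {p u e : ℕ} (hp : 2 ≤ p) (hu : 1 ≤ u) {a b : ℕ}
    (h : codeN p u e a = codeN p u e b) : a = b := by
  unfold codeN at h
  have h1 := Nat.pow_right_injective hp h
  have h2 := Nat.eq_of_mul_eq_mul_left (by omega) h1
  omega

theorem le_codeN {p u e : ℕ} (hp : 2 ≤ p) (hu : 1 ≤ u) (a : ℕ) : a ≤ codeN p u e a := by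
  unfold codeN
  have h1 : a ≤ u * (a + e) := by nlinarith
  have h2 : u * (a + e) < p ^ (u * (a + e)) := Nat.lt_pow_self (by omega)
  omega

/-- decoding -/
def decN (p u e x : ℕ) : ℕ := Nat.findGreatest (fun a => codeN p u e a = x) x

theorem dec_code {p u e : ℕ} (hp : 2 ≤ p) (hu : 1 ≤ u) (a : ℕ) :
    decN p u e (codeN p u e a) = a := by
  unfold decN
  have h := Nat.findGreatest_spec (P := fun b => codeN p u e b = codeN p u e a)
    (n := codeN p u e a) (le_codeN (e := e) hp hu a) rfl
  exact codeN_inj hp hu h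

theorem primrec_pow (p : ℕ) : Primrec (fun n : ℕ => p ^ n) := by
  have h : Primrec (fun n : ℕ => Nat.rec (motive := fun _ => ℕ) 1 (fun _ y => y * p) n) :=
    Primrec.nat_rec₁ 1 (Primrec.nat_mul.comp Primrec.snd (Primrec.const p)).to₂
  refine h.of_eq fun n => ?_
  induction n with
  | zero => rfl
  | succ n ih => rw [pow_succ, ← ih]

theorem primrec_codeN (p u e : ℕ) : Primrec (codeN p u e) := by
  have h : Primrec (fun a : ℕ => p ^ (u * (a + e))) :=
    (primrec_pow p).comp (Primrec.nat_mul.comp (Primrec.const u)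
      (Primrec.nat_add.comp Primrec.id (Primrec.const e)))
  exact h

theorem primrec_decN (p u e : ℕ) : Primrec (decN p u e) := by
  have h : PrimrecRel (fun (x a : ℕ) => codeN p u e a = x) :=
    Primrec.eq.comp ((primrec_codeN p u e).comp Primrec.snd) Primrec.fst
  exact Primrec.nat_findGreatest Primrec.id h

/-- the decoded relation is recursively enumerable -/
theorem re_dec {p u e k : ℕ} {S : Set (Fin k → ℤ)} (hS : REPred (fun a => a ∈ S)) :
    REPred (fun b : Fin k → ℕ => b ∈ {b : Fin k → ℕ |
      (fun i => Denumerable.ofNat ℤ (decN p u e (b i))) ∈ S}) := by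
  have h1 : Primrec (fun (b : Fin k → ℕ) (i : Fin k) =>
      Denumerable.ofNat ℤ (decN p u e (b i))) := by
    refine Primrec.fin_curry.2 (Primrec₂.swap (Primrec.fin_curry₁.2 (fun i => ?_)))
    exact (Primrec.ofNat ℤ).comp ((primrec_decN p u e).comp
      (Primrec.fin_app.comp Primrec.id (Primrec.const _)))
  exact Partrec.comp hS h1.to_comp

end Vale.Agent.P027.T3
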