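import Vale.Agent.P027.R3.H250.Inst

set_option linter.all false

/-! The instance of the data of the reading formula, with the coordinates of the points. -/

namespace Vale.Agent.P027.T3

open Vale.Agent.P027 Module IsDedekindDomain NumberField

variable {p : ℕ} [hpF : Fact p.Prime] {K : Type} [Field K] [NumberField K]

theorem exists_RD' (D : Fld p K) (hp : p % 12 = 7) {s : ℕ} (hs : D.m = 3 * s) (Bd : ℕ → Prop)
    (hint : ∀ r : ℕ, r.Prime → r ≠ 3 → ¬ Bd r → ∀ t : K, t * (D.σ ^ (3 * s)) t = 1 →
      t * (D.σ ^ (2 * s)) t * (D.σ ^ (4 * s)) t = 1 → Pint r t) (P : Finset ℕ) :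
    ∃ A : RD K, A.p = p ∧ (∀ (j : ℤ) (i : Fin A.n), ∃ (x : ℤ) (m : ℕ),
      A.b.repr (A.α ^ j) i = (x : ℚ) / (p : ℚ) ^ m) ∧ ∀ t : K, (∀ j, ∀ r : ℕ, r.Prime → r ∣ (A.b.repr t j).den →
      r = p ∨ r ∈ P ∨ ¬ Bd r) → A.Adm t := by
  obtain ⟨ν, α, hν, hα, hα1, hαν⟩ := exists_alpha D hs
  obtain ⟨π, hπ, -, hπ1, hπ2⟩ := exists_pi D
  have hp' := hpF.out
  have hπp : Pint p π := Pint.of_integral hp' hπ
  obtain ⟨B, V, hB1, hB2, hB⟩ := exists_base' D hp hs hα hα1
  obtain ⟨hpow1, hpow2, u₀, hu₀, hprod⟩ := pow_prod hB hp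
  have hα0 : α ≠ 0 := hα.ne
  obtain ⟨a0, ha0, hval⟩ : ∃ a : ℕ, 1 ≤ a ∧ ‖D.φ α‖ = (p : ℝ) ^ (-(a : ℤ)) := by
    have h2 : D.φ α ≠ 0 := by simpa using hα0
    have h3 := Padic.norm_eq_zpow_neg_valuation h2
    rw [h3, zpow_lt_one_iff_right₀ (by exact_mod_cast hp'.one_lt)] at hα1
    refine ⟨(D.φ α).valuation.toNat, by omega, ?_⟩
    rw [h3]
    congr 2
    omega
  have hp1 : (1 : ℝ) < p := by exact_mod_cast hp'.one_lt
  have hpR : (p : ℝ) ≠ 0 := by positivity
  have htau : ∀ i, tauQ (B α) i = tau (B α) i := by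
    intro i
    unfold tauQ tau
    rw [pow_mul]
  refine ⟨{ n := 2 * D.m
            b := D.bas
            p := p
            hp := hp'
            α := α
            hα := hα0
            Adm := fun t => ∀ j, ∀ r : ℕ, r.Prime → r ∣ (D.bas.repr t j).den →
              r = p ∨ r ∈ P ∨ ¬ Bd r
            Mem := MemD D s ν P
            mem_sound := ?_
            mem_complete := ?_
            dio_mem := fun hf hg => dio_memD D hπp hπ1 hπ2 s ν P hf hg
            Ord := fun x => ‖D.φ x‖ ≤ 1
            a0 := a0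
            ha0 := ha0
            ord_iff := ?_
            dio_ord := fun hf => dio_val D hπp hπ1 hπ2 hf
            β := B α
            hβ := hB.ne
            hβ1 := ?_
            Bt := B
            bt_pow := hB1 α
            fn_bt := fun hf => hB2 hf
            T := NT K p (2 * V + 1)
            dio_T := fun hf => dio_norm (Module.finBasis K (CyclotomicField (p ^ (2 * V + 1)) K)) hf
            e := 2 * V + 1
            u0 := u₀
            hu0 := hu₀
            he := by omega
            pow_sound := ?_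
            pow_complete := ?_
            prod_iff := ?_
            O := OutRing p K
            hβO := hB.out
            hβO' := hB.out_inv
            Good := fun q => T2.Inert3 q ∧ q ≠ p
            good_prime := fun q hq => ⟨hq.1.1, hq.2⟩
            CPK := CPK D
            cpk_sound := ?_
            cpk_complete := ?_
            dio_cpk := fun hL => dio_cpk D hL
            capt := ?_
            frob := ?_ }, rfl, fun j i => out_coord D (hα.zpow j).1 i, fun t ht => ht⟩
  · -- soundness of the certificate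
    rintro t z hadm ⟨rfl, h1, h2, h3, h4, h5⟩
    have ht0 : t ≠ 0 := by
      rintro rfl
      simp at h1
    have hTor : Tor D s t := by
      refine ⟨out_iff.2 (fun r hr hrp => ?_), h1, h2, fun i hi a b c d => ?_⟩
      · by_cases hr3 : r = 3
        · subst hr3; exact h3
        · by_cases hB : Bd r
          · by_cases hrP : r ∈ P
            · exact h4 r (Nat.lt_succ_of_le (Finset.le_sup (f := id) hrP)) ⟨hrP, hr, hrp⟩
            · rw [pint_iff D hr]
              intro j
              rw [val_nonneg_iff hr]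
              intro hd
              rcases hadm j r hr hd with h | h | h
              · exact hrp h
              · exact hrP h
              · exact h hB
          · exact hint r hr hr3 hB t h1 h2
      · have h6 := h5 i hi ⟨a, b, c, d⟩
        rw [map_inv₀] at h6
        refine (norm_eq_one_iff' _ ?_).2 h6
        exact (map_ne_zero D.φ).2 ((map_ne_zero (D.σ ^ i)).2 ht0)
    obtain ⟨j, hj⟩ := (hαν (t ^ ν)).2 ⟨t, hTor, rfl⟩
    exact ⟨j, hj⟩
  · -- completeness
    intro j
    obtain ⟨t, ht, htz⟩ := (hαν (α ^ j)).1 ⟨j, rfl⟩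
    refine ⟨t, fun i => ?_, htz, ht.2.1, ht.2.2.1, ?_, fun r _ hr => ?_, fun i hi hne => ?_⟩
    · obtain ⟨n, m, hnm⟩ := out_coord D ht.1 i
      exact ⟨n, m, hnm⟩
    · exact out_iff.1 ht.1 3 Nat.prime_three (by rintro rfl; omega)
    · exact out_iff.1 ht.1 r hr.2.1 hr.2.2
    · have h6 := ht.2.2.2 i hi hne.1 hne.2.1 hne.2.2.1 hne.2.2.2
      rw [map_inv₀]
      refine (norm_eq_one_iff' _ ?_).1 h6
      exact (map_ne_zero D.φ).2 ((map_ne_zero (D.σ ^ i)).2 ht.ne)
  · -- the order relation
    intro j a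
    have e : ‖D.φ (α ^ j * ((p : K) ^ a)⁻¹)‖ = (p : ℝ) ^ (-(a0 * j) + (a : ℤ)) := by
      rw [map_mul, map_zpow₀, map_inv₀, map_pow, map_natCast, norm_mul, norm_zpow, norm_inv,
        norm_pow, Padic.norm_p, hval, ← zpow_mul, inv_pow, inv_inv, zpow_add₀ hpR, zpow_natCast]
      congr 2
      ring
    rw [e, zpow_le_one_iff_right₀ hp1]
    constructor
    · intro h; linarith
    · intro h; linarith
  · -- the base is not a root of unity
    intro m hm h
    have h1 := congrArg (fun x => ‖D.φ x‖) h
    simp only [map_pow, map_one, norm_pow, norm_one, hB.val] at h1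
    rw [← zpow_natCast, ← zpow_natCast, ← zpow_mul, ← zpow_mul] at h1
    have h2 := (zpow_eq_one_iff_right₀ (by positivity) hp1.ne').1 h1
    have h3 := hB.V_pos
    have h4 : (0 : ℤ) < V * 2 * m := by positivity
    push_cast at h2
    nlinarith
  · intro i hi h
    rw [htau, htau] at h
    exact hpow1 i hi h
  · intro w hw
    rw [htau, htau]
    exact hpow2 w hw
  · intro w v u hw0 hv0 hu0 hw hv hu
    rw [htau, htau]
    have := hprod w v (w + u) hw hv (by omega) hw0 hv0 (dvd_add hw0 hu0)
    rw [this]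
    omega
  · intro L hL
    obtain ⟨q, hq, hqp, Q, h1, h2, h3⟩ := hL.sound'
    exact ⟨q, ⟨hq, hqp⟩, Q, h1, h2, h3⟩
  · intro q hq Q hQ hqQ L hL
    exact CPK.complete' D hp hq.1 hq.2 hQ hqQ hL
  · exact fun w => capt hB hp w
  · intro q hq Q hQ hqQ
    exact frob' D hq.1.1 hq.2 hQ hqQ

end Vale.Agent.P027.T3
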