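import Vale.Agent.P027.R3.H18.Model
import Vale.Agent.P027.R3.H18.InstM
import Vale.Agent.P027.R3.H124.FldAll

set_option linter.all false

/-! The Diophantine model over the rings of the theorem. -/

namespace Vale.Agent.P027.T3

open Vale.Agent.P027 MvPolynomial Module

theorem formM_cyc (κ p : ℕ) (hκ : 2 ≤ κ) (hp : p.Prime) (h3 : p ≡ 1 [MOD 3 ^ κ])
    (h12 : p % 12 = 7) (P : Finset ℕ) :
    ∃ (n : ℕ) (c : ℤ → Fin n → ℚ), Function.Injective c ∧
      (∀ a j, ∃ (z : ℤ) (l : ℕ), c a j = (z : ℚ) / (p : ℚ) ^ l) ∧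
      FormM p n c (fun R => ∀ x ∈ R, ∀ r : ℕ, r.Prime → r ∣ x.den →
        r = p ∨ r ∈ P ∨ ¬ r ≡ 1 [MOD 3 ^ κ]) := by
  have := Fact.mk hp
  obtain ⟨D, hm, hint⟩ := exists_fld κ p hκ h3
  obtain ⟨A, hA, hco, hadm⟩ := exists_RD' D h12 hm (fun r => r ≡ 1 [MOD 3 ^ κ]) hint P
  have h := A.formM
  rw [hA] at h
  refine ⟨A.n, A.cc, A.cc_inj, fun a j => hco _ j, fun k S hS => ?_⟩
  obtain ⟨m, r, F, hF⟩ := h k S hS
  refine ⟨m, r, F, fun R R' hR hok hR' => hF R R' hR (fun t ht => hadm t (fun j r hr hrd => ?_)) hR'⟩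
  exact hok _ (ht j) r hr hrd

/-- if one of the sets `R` is Diophantine over the rationals -/
theorem formM_cond {p n : ℕ} {c : ℤ → Fin n → ℚ} {ok : Set ℚ → Prop} (hform : FormM p n c ok)
    (R : Set ℚ) (hR1 : ∀ (z : ℤ) (j : ℕ), (z : ℚ) / (p : ℚ) ^ j ∈ R) (hR2 : ok R)
    (hR : ∃ (l : ℕ) (g : MvPolynomial (Fin 1 ⊕ Fin l) ℤ), ∀ x : ℚ,
      (x ∈ R ↔ ∃ z : Fin l → ℚ, aeval (Sum.elim (fun _ => x) z) g = 0))
    (k : ℕ) (S : Set (Fin k → ℤ)) (hS : REPred (fun a => a ∈ S)) :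
    ∃ (r : ℕ) (F : MvPolynomial ((Fin k × Fin n) ⊕ Fin r) ℤ), ∀ x : Fin k × Fin n → ℚ,
      ((∃ a ∈ S, ∀ i j, x (i, j) = c (a i) j) ↔
        ∃ y : Fin r → ℚ, aeval (Sum.elim x y) F = 0) := by
  obtain ⟨m, r, F, hF⟩ := hform k S hS
  obtain ⟨l, g, hg⟩ := hR
  -- unknowns `u i`, `y j`, `z i j`
  let W : Type := (Fin m ⊕ Fin r) ⊕ (Fin m × Fin l)
  let eq : Fin (Fintype.card W) ≃ W := (Fintype.equivFin W).symm
  let F₁ : MvPolynomial ((Fin k × Fin n) ⊕ W) ℤ :=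
    (rename (Sum.map id Sum.inl) F) ^ 2 +
    ∑ i : Fin m, (rename (Sum.elim (fun _ => Sum.inr (Sum.inl (Sum.inl i)))
      (fun j => Sum.inr (Sum.inr (i, j)))) g) ^ 2
  refine ⟨Fintype.card W, rename (Sum.map id eq.symm) F₁, fun x => ?_⟩
  have ev : ∀ w : W → ℚ, aeval (Sum.elim x w) F₁ =
      (aeval (Sum.elim x (Sum.elim (fun i => w (Sum.inl (Sum.inl i)))
        (fun i => w (Sum.inl (Sum.inr i))))) F) ^ 2 + ∑ i : Fin m,
        (aeval (Sum.elim (fun _ => w (Sum.inl (Sum.inl i))) (fun j => w (Sum.inr (i, j)))) g) ^ 2 := by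
    intro w
    simp only [F₁, map_add, map_pow, map_sum, aeval_rename]
    congr 1
    · congr 2
      congr 1
      funext i
      rcases i with i | i | i <;> rfl
    · refine Finset.sum_congr rfl (fun i _ => ?_)
      congr 2
      congr 1
      funext j
      rcases j with j | j <;> rfl
  have hex : (∃ y : Fin (Fintype.card W) → ℚ,
      aeval (Sum.elim x y) (rename (Sum.map id eq.symm) F₁) = 0) ↔
      ∃ w : W → ℚ, aeval (Sum.elim x w) F₁ = 0 := by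
    have key : ∀ y : Fin (Fintype.card W) → ℚ,
        Sum.elim x y ∘ Sum.map id eq.symm = Sum.elim x (y ∘ eq.symm) := by
      intro y; funext i; rcases i with i | i <;> rfl
    simp only [aeval_rename, key]
    constructor
    · rintro ⟨y, hy⟩; exact ⟨_, hy⟩
    · rintro ⟨w, hw⟩
      refine ⟨w ∘ eq, ?_⟩
      have : (w ∘ eq) ∘ eq.symm = w := by funext i; simp
      rw [this]
      exact hw
  rw [hex, hF R Set.univ hR1 hR2 (fun _ => Set.mem_univ _) x]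
  constructor
  · rintro ⟨u, y, hu, -, h⟩
    choose z hz using fun i => (hg (u i)).1 (hu i)
    refine ⟨Sum.elim (Sum.elim u y) (fun ij => z ij.1 ij.2), ?_⟩
    rw [ev]
    simp only [Sum.elim_inl, Sum.elim_inr]
    rw [h, Finset.sum_eq_zero (fun i _ => by rw [hz i]; ring)]
    ring
  · rintro ⟨w, hw⟩
    rw [ev] at hw
    have h1 : 0 ≤ ∑ i : Fin m, (aeval (Sum.elim (fun _ => w (Sum.inl (Sum.inl i)))
        (fun j => w (Sum.inr (i, j)))) g) ^ 2 := Finset.sum_nonneg (fun i _ => sq_nonneg _)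
    have h2 := sq_nonneg (aeval (Sum.elim x (Sum.elim (fun i => w (Sum.inl (Sum.inl i)))
        (fun i => w (Sum.inl (Sum.inr i))))) F)
    have h3 := pow_eq_zero_iff (n := 2) (by norm_num) |>.1 (le_antisymm (by linarith) h2)
    have h4 : ∑ i : Fin m, (aeval (Sum.elim (fun _ => w (Sum.inl (Sum.inl i)))
        (fun j => w (Sum.inr (i, j)))) g) ^ 2 = 0 := le_antisymm (by linarith) h1
    rw [Finset.sum_eq_zero_iff_of_nonneg (fun i _ => sq_nonneg _)] at h4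
    refine ⟨_, _, fun i => ?_, fun _ => Set.mem_univ _, h3⟩
    have h5 := pow_eq_zero_iff (n := 2) (by norm_num) |>.1 (h4 i (Finset.mem_univ i))
    exact (hg _).2 ⟨_, h5⟩

end Vale.Agent.P027.T3
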