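import Vale.Agent.P027.R3.H18.HtX
import Vale.Agent.P027.R3.H124.ReadX
import Vale.Agent.P027.R3.H124.CompX
import Vale.Agent.P027.R3.H124.FormsX

set_option linter.all false

/-! Every recursively enumerable set of tuples of integers is Diophantine. -/

namespace Vale.Agent.P027.T3

open Vale.Agent.P027 MvPolynomial Module

variable {K : Type} [Field K] [Algebra ℚ K] (D : RD K)

open Vale.Agent.P027.T2 in
theorem RD.formX (hS : D.ReadXSound) (hC : D.ReadXComplete) (hG : D.Grow) (hDv : D.Divi)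
    {okv : ℚ → Prop} {m t C : ℕ} (hm : 0 < m) (hB : HtB okv m t C) :
    FormX D.p (fun R => (∀ t : K, (∀ j, D.b.repr t j ∈ R) → D.Adm t) ∧ ∀ v ∈ R, okv v) := by
  obtain ⟨A, hA⟩ := hG
  intro k S hSr
  obtain ⟨m₀, P₀, hP₀⟩ := dprm (re_SX (C := C) (A := A) hSr)
  -- the polynomial
  obtain ⟨P, hPdef⟩ : ∃ P : MvPolynomial (Fin (k + k + 3 + m₀)) ℤ, P = rename
    (Sum.elim (Fin.castAdd m₀) (Fin.natAdd (k + k + 3))) P₀ := ⟨_, rfl⟩
  have hP : ∀ X : ℕ → ℕ, eval (fun j : Fin (k + k + 3 + m₀) => (X j : ℤ)) P =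
      eval (Sum.elim (fun i : Fin (k + k + 3) => ((X i : ℕ) : ℤ))
        (fun j : Fin m₀ => ((X (k + k + 3 + j) : ℕ) : ℤ))) P₀ := by
    intro X
    rw [hPdef, eval_rename]
    congr 2
    funext i
    rcases i with i | i <;> rfl
  obtain ⟨C', d, hCd₀⟩ := eval_bound P
  have hCd : ∀ g : ℕ, 1 ≤ g → ∀ v : Fin (k + k + 3 + m₀) → ℤ, (∀ i, |v i| ≤ g) →
      |eval v P| ≤ C' * g ^ (d + 2) := by
    intro g hg v hv
    refine (hCd₀ g hg v hv).trans ?_
    have h1 : (1 : ℤ) ≤ g := by exact_mod_cast hg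
    exact mul_le_mul_of_nonneg_left (pow_le_pow_right₀ h1 (by omega)) (by positivity)
  obtain ⟨κ, hκ⟩ : ∃ κ, κ = D.n * (d + 2 + 1) := ⟨_, rfl⟩
  have hκ2 : D.n * (d + 2 + 1) ≤ 2 ^ κ := by rw [← hκ]; exact Nat.lt_two_pow_self.le
  obtain ⟨c₀, hc₀⟩ : ∃ c₀, c₀ = C' + 3 := ⟨_, rfl⟩
  obtain ⟨N, hN⟩ : ∃ N, N = κ + 2 + (k + k + 3 + m₀) := ⟨_, rfl⟩
  obtain ⟨N₂, hN₂⟩ : ∃ N₂, N₂ = N + (κ + 2) := ⟨_, rfl⟩
  obtain ⟨Mz, hMz⟩ : ∃ Mz, Mz = N₂ + 8 := ⟨_, rfl⟩
  obtain ⟨Mu, hMu⟩ : ∃ Mu, Mu = Mz + k := ⟨_, rfl⟩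
  let Z : (Fin Mz → K) → ℕ → K := fun y i => if h : i < Mz then y ⟨i, h⟩ else 1
  let T : (Fin Mz → K) → (ℕ → ℚ) → Prop := fun y v =>
    D.ReadX P κ c₀ k (fun i => algebraMap ℚ K (v i))
      (fun i => kv D.b (k + i * D.n) v) (fun i => Z y i)
      (fun i => kv D.b (k + (N + i) * D.n) v) (fun i => Z y (N + i)) ∧
    (∀ l < 2, D.Link (Z y κ) (Z y (κ + 2 + (k + k + l)))
      (kv D.b (k + (N₂ + 4 * l) * D.n) v) (Z y (N₂ + 4 * l))
      (kv D.b (k + (N₂ + 4 * l + 1) * D.n) v) (Z y (N₂ + 4 * l + 1))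
      (kv D.b (k + (N₂ + 4 * l + 2) * D.n) v) (Z y (N₂ + 4 * l + 2))
      (kv D.b (k + (N₂ + 4 * l + 3) * D.n) v) (Z y (N₂ + 4 * l + 3))) ∧
    ∀ i < k, kv D.b (k + (Mz + i) * D.n) v * psi m t (algebraMap ℚ K (v i)) =
      Z y N₂ / Z y (N₂ + 4) - 1
  have hT : Dio (fun v => ∃ y, T y v) := by
    refine exKN (b := D.b) ?_
    have hZ : ∀ i, FnK D.b (fun v => Z (fun l : Fin Mz => kv D.b (l * D.n) v) i) := by
      intro i
      by_cases hi : i < Mz
      · exact (fnK_kv (b := D.b) (i * D.n)).congr (fun v => by simp [Z, hi])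
      · exact (FnK.const (b := D.b) 1).congr (fun v => by simp [Z, hi])
    have hv : ∀ i, FnK D.b (fun v => algebraMap ℚ K (dr (Mz * D.n) v i)) := fun i =>
      FnK.rat (DioFn.var _)
    refine Dio.and ?_ (Dio.and ?_ ?_)
    · exact D.dio_readX P κ c₀ k hv (fun i => (fnK_kv _).dr _) (fun i => hZ i)
        (fun i => (fnK_kv _).dr _) (fun i => hZ (N + i))
    · exact K2.Dio.forall_lt (fun l => D.dio_link (hZ _) (hZ _) ((fnK_kv _).dr _)
        (hZ _) ((fnK_kv _).dr _) (hZ _) ((fnK_kv _).dr _) (hZ _) ((fnK_kv _).dr _)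
        (hZ _)) _
    · refine K2.Dio.forall_lt (fun i => dioK_eq (((fnK_kv _).dr _).mul ?_)
        (((hZ _).div (hZ _)).sub (FnK.const 1))) _
      unfold psi
      exact (((hv i).pow _).add ((FnK.const _).mul ((hv i).pow _))).add (FnK.const _)
  obtain ⟨r, F, hF⟩ := pack (k := 0) (m := k + Mu * D.n) hT
  obtain ⟨a₀, ha₀⟩ : ∃ a₀ : Fin 0 → ℤ, a₀ = fun _ => 0 := ⟨_, rfl⟩
  -- the environment
  obtain ⟨U, hU⟩ : ∃ U : (Fin k → ℚ) → (Fin (Mu * D.n) → ℚ) → (Fin (k + Mu * D.n) → ℚ),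
      ∀ x w, U x w = Fin.append x w := ⟨_, fun _ _ => rfl⟩
  have hlt : ∀ (L i : ℕ) (hi : i < L) (j : Fin D.n), i * D.n + j < L * D.n := by
    intro L i hi j
    calc i * D.n + j < i * D.n + D.n := by omega
      _ = (i + 1) * D.n := by ring
      _ ≤ L * D.n := Nat.mul_le_mul_right _ hi
  have ev1 : ∀ (x : Fin k → ℚ) (w : Fin (Mu * D.n) → ℚ) (i : ℕ) (hi : i < k),
      envT a₀ (U x w) i = x ⟨i, hi⟩ := by
    intro x w i hi
    have h4 : i < k + Mu * D.n := by omega
    have h5 : (⟨i, h4⟩ : Fin (k + Mu * D.n)) = Fin.castAdd (Mu * D.n) ⟨i, hi⟩ := rfl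
    simp only [envT, Nat.not_lt_zero, dif_neg, not_false_eq_true, Nat.sub_zero, h4, dif_pos]
    rw [h5, hU, Fin.append_left]
  have ekv : ∀ (x : Fin k → ℚ) (w : Fin (Mu * D.n) → ℚ) (i : ℕ) (hi : i < Mu),
      kv D.b (k + i * D.n) (envT a₀ (U x w)) =
        ∑ j : Fin D.n, w ⟨i * D.n + j, hlt Mu i hi j⟩ • D.b j := by
    intro x w i hi
    unfold kv
    refine Finset.sum_congr rfl (fun j _ => ?_)
    have h3 := hlt Mu i hi j
    have h4 : k + i * D.n + j < k + Mu * D.n := by omega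
    have h5 : (⟨k + i * D.n + j, h4⟩ : Fin (k + Mu * D.n)) =
        Fin.natAdd k ⟨i * D.n + j, h3⟩ := by
      apply Fin.ext
      simp
      ring
    simp only [envT, Nat.not_lt_zero, dif_neg, not_false_eq_true, Nat.sub_zero, h4, dif_pos]
    rw [h5, hU, Fin.append_right]
  -- the final polynomial
  let φ : Fin 0 ⊕ Fin (k + Mu * D.n) ⊕ Fin r → Fin k ⊕ Fin (Mu * D.n) ⊕ Fin r :=
    Sum.elim (fun i => i.elim0) (Sum.elim
      (Fin.addCases (fun l => Sum.inl l) (fun l => Sum.inr (Sum.inl l)))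
      (fun l => Sum.inr (Sum.inr l)))
  have key : ∀ (x : Fin k → ℚ) (w : Fin (Mu * D.n) → ℚ) (y : Fin r → ℚ),
      aeval (Sum.elim x (Sum.elim w y)) (rename φ F) =
      aeval (Sum.elim (fun i => ((a₀ i : ℤ) : ℚ)) (Sum.elim (U x w) y)) F := by
    intro x w y
    rw [aeval_rename]
    congr 2
    funext i
    rcases i with i | i | i
    · exact i.elim0
    · simp only [Sum.elim_inr, Sum.elim_inl, Function.comp_apply, hU]
      refine Fin.addCases (fun l => ?_) (fun l => ?_) i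
      · simp only [φ, Sum.elim_inr, Sum.elim_inl, Fin.addCases_left, Fin.append_left]
      · simp only [φ, Sum.elim_inr, Sum.elim_inl, Fin.addCases_right, Fin.append_right]
    · simp only [φ, Function.comp_apply, Sum.elim_inr]
  have hp2 := D.hp.two_le
  refine ⟨Mu * D.n, r, rename φ F, fun R R' hR hok hR' x => ⟨?_, ?_⟩⟩
  · -- completeness
    rintro ⟨a, ha, hx⟩
    obtain ⟨L, hL0, hLV⟩ := D.exists_V hDv hm t a
    obtain ⟨b₁, b₂, hb, hLb⟩ := exists_codes (p := D.p) (u := D.u0) (e := D.e) hp2 D.hu0 hL0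
    obtain ⟨c₁, hc₁⟩ : ∃ c₁, c₁ = codeN D.p D.u0 D.e b₁ := ⟨_, rfl⟩
    obtain ⟨c₂, hc₂⟩ : ∃ c₂, c₂ = codeN D.p D.u0 D.e b₂ := ⟨_, rfl⟩
    rw [← hc₁, ← hc₂] at hb hLb
    choose V hV1 hV2 using hLV (c₁ - c₂) hLb
    -- the values
    obtain ⟨aa, haa⟩ : ∃ aa : ℕ → ℤ, ∀ i : Fin k, aa i = a i :=
      ⟨fun i => if h : i < k then a ⟨i, h⟩ else 0, fun i => by simp⟩
    obtain ⟨bN, hbN⟩ : ∃ bN : ℕ → ℕ, ∀ i, bN i = if i < k then (aa i).toNat else
      if i < k + k then (-aa (i - k)).toNat else if i = k + k then c₁ else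
      if i = k + k + 1 then c₂ else C * (A + 1) ^ (c₁ + 1) := ⟨_, fun _ => rfl⟩
    have g1 : ∀ i < k, bN i = (aa i).toNat := fun i hi => by rw [hbN, if_pos hi]
    have g2 : ∀ i < k, bN (k + i) = (-aa i).toNat := fun i hi => by
      rw [hbN, if_neg (by omega), if_pos (by omega), Nat.add_sub_cancel_left]
    have g3 : bN (k + k) = c₁ := by
      rw [hbN, if_neg (by omega), if_neg (by omega), if_pos rfl]
    have g4 : bN (k + k + 1) = c₂ := by
      rw [hbN, if_neg (by omega), if_neg (by omega), if_neg (by omega), if_pos rfl]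
    have g5 : bN (k + k + 2) = C * (A + 1) ^ (c₁ + 1) := by
      rw [hbN, if_neg (by omega), if_neg (by omega), if_neg (by omega), if_neg (by omega)]
    have g6 : ∀ i < k, ((bN i : ℕ) : ℤ) - ((bN (k + i) : ℕ) : ℤ) = aa i := by
      intro i hi
      rw [g1 i hi, g2 i hi]
      exact Int.toNat_sub_toNat_neg _
    have hmem : (fun i : Fin (k + k + 3) => bN i) ∈ SX k C A S := by
      refine ⟨?_, ?_, ?_⟩
      · have : (fun i : Fin k => ((bN i : ℕ) : ℤ) - ((bN (k + i) : ℕ) : ℤ)) = a := by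
          funext i
          rw [g6 i i.2, haa]
        show (fun i : Fin k => ((bN i : ℕ) : ℤ) - ((bN (k + i) : ℕ) : ℤ)) ∈ S
        rw [this]; exact ha
      · show bN (k + k + 1) < bN (k + k)
        rw [g3, g4]; exact hb
      · show C * (A + 1) ^ (bN (k + k) + 1) ≤ bN (k + k + 2)
        rw [g3, g5]
    obtain ⟨x₀, hx₀⟩ := (hP₀ _).1 hmem
    obtain ⟨X, hX1, hX2⟩ : ∃ X : ℕ → ℕ, (∀ i < k + k + 3, X i = bN i) ∧
        ∀ j : Fin m₀, X (k + k + 3 + j) = x₀ j := by
      refine ⟨fun i => if i < k + k + 3 then bN i else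
        if h : i - (k + k + 3) < m₀ then x₀ ⟨i - (k + k + 3), h⟩ else 0, fun i hi => if_pos hi,
        fun j => ?_⟩
      have h1 : ¬ k + k + 3 + (j : ℕ) < k + k + 3 := by omega
      have h2 : k + k + 3 + (j : ℕ) - (k + k + 3) < m₀ := by omega
      simp only [h1, if_false, h2, dif_pos]
      congr 1
      apply Fin.ext
      simp
    have hPX := hP X
    have q1 : (fun i : Fin (k + k + 3) => ((X i : ℕ) : ℤ)) =
        fun i : Fin (k + k + 3) => ((bN i : ℕ) : ℤ) := by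
      funext i
      rw [hX1 i i.2]
    simp only [hX2] at hPX
    rw [q1, hx₀] at hPX
    obtain ⟨W, E, J, hW1, hW2, hEκ, hEj, hR1⟩ := hC P κ c₀ k X (by omega) hPX
    obtain ⟨J₁, JU₁, hL₁⟩ := D.link_complete hW1 hW2 b₁
    obtain ⟨J₂, JU₂, hL₂⟩ := D.link_complete hW1 hW2 b₂
    rw [← hc₁] at hL₁
    rw [← hc₂] at hL₂
    -- exponents
    obtain ⟨e, he⟩ : ∃ e : ℕ → ℤ, ∀ i, e i = if i < N then (E i : ℤ) else
        if i < N₂ then (J (i - N) : ℤ) else
        if i = N₂ then (c₁ : ℤ) else if i = N₂ + 1 then (J₁ : ℤ) else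
        if i = N₂ + 2 then ((D.p ^ W * c₁ : ℕ) : ℤ) else if i = N₂ + 3 then (JU₁ : ℤ) else
        if i = N₂ + 4 then (c₂ : ℤ) else if i = N₂ + 5 then (J₂ : ℤ) else
        if i = N₂ + 6 then ((D.p ^ W * c₂ : ℕ) : ℤ) else (JU₂ : ℤ) := ⟨_, fun _ => rfl⟩
    have he1 : ∀ i < N, e i = E i := fun i hi => by rw [he, if_pos hi]
    have he2 : ∀ i < κ + 2, e (N + i) = J i := by
      intro i hi
      rw [he, if_neg (by omega), if_pos (by omega), Nat.add_sub_cancel_left]
    have f0 : e N₂ = c₁ := by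
      rw [he, if_neg (by omega), if_neg (by omega), if_pos rfl]
    have f1 : e (N₂ + 1) = J₁ := by
      rw [he, if_neg (by omega), if_neg (by omega), if_neg (by omega), if_pos rfl]
    have f2 : e (N₂ + 2) = ((D.p ^ W * c₁ : ℕ) : ℤ) := by
      rw [he, if_neg (by omega), if_neg (by omega), if_neg (by omega), if_neg (by omega),
        if_pos rfl]
    have f3 : e (N₂ + 3) = JU₁ := by
      rw [he, if_neg (by omega), if_neg (by omega), if_neg (by omega), if_neg (by omega),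
        if_neg (by omega), if_pos rfl]
    have f4 : e (N₂ + 4) = c₂ := by
      rw [he, if_neg (by omega), if_neg (by omega), if_neg (by omega), if_neg (by omega),
        if_neg (by omega), if_neg (by omega), if_pos rfl]
    have f5 : e (N₂ + 4 + 1) = J₂ := by
      rw [he, if_neg (by omega), if_neg (by omega), if_neg (by omega), if_neg (by omega),
        if_neg (by omega), if_neg (by omega), if_neg (by omega), if_pos rfl]
    have f6 : e (N₂ + 4 + 2) = ((D.p ^ W * c₂ : ℕ) : ℤ) := by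
      rw [he, if_neg (by omega), if_neg (by omega), if_neg (by omega), if_neg (by omega),
        if_neg (by omega), if_neg (by omega), if_neg (by omega), if_neg (by omega), if_pos rfl]
    have f7 : e (N₂ + 4 + 3) = JU₂ := by
      rw [he, if_neg (by omega), if_neg (by omega), if_neg (by omega), if_neg (by omega),
        if_neg (by omega), if_neg (by omega), if_neg (by omega), if_neg (by omega),
        if_neg (by omega)]
    choose t' ht1 ht2 using fun i => D.mem_complete (e i)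
    -- the elements
    obtain ⟨τ, hτ1, hτ2⟩ : ∃ τ : ℕ → K, (∀ i < Mz, τ i = t' i) ∧
        ∀ i : Fin k, τ (Mz + i) = V i := by
      refine ⟨fun i => if i < Mz then t' i else if h : i - Mz < k then V ⟨i - Mz, h⟩ else 0,
        fun i hi => if_pos hi, fun i => ?_⟩
      have h1 : ¬ Mz + (i : ℕ) < Mz := by omega
      have h2 : Mz + (i : ℕ) - Mz < k := by omega
      simp only [h1, if_false, h2, dif_pos]
      congr 1
      apply Fin.ext
      simp
    have hτR : ∀ i < Mu, ∀ j, D.b.repr (τ i) j ∈ R := by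
      intro i hi j
      by_cases h : i < Mz
      · rw [hτ1 i h]
        obtain ⟨z, l, hz⟩ := ht1 i j
        rw [hz]; exact hR z l
      · obtain ⟨i', rfl⟩ : ∃ i', i = Mz + i' := ⟨i - Mz, by omega⟩
        have h2 := hτ2 ⟨i', by omega⟩
        simp only at h2
        rw [h2]
        obtain ⟨z, l, hz⟩ := hV2 ⟨i', by omega⟩ j
        rw [hz]; exact hR z l
    let w : Fin (Mu * D.n) → ℚ := fun l =>
      D.b.repr (τ (finProdFinEquiv.symm l).1) (finProdFinEquiv.symm l).2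
    have hw : ∀ i < Mu, kv D.b (k + i * D.n) (envT a₀ (U x w)) = τ i := by
      intro i hi
      rw [ekv x w i hi]
      conv_rhs => rw [← D.b.sum_repr (τ i)]
      refine Finset.sum_congr rfl (fun j _ => ?_)
      have h1 : (⟨i * D.n + j, hlt Mu i hi j⟩ : Fin (Mu * D.n)) =
          finProdFinEquiv (⟨i, hi⟩, j) := by
        apply Fin.ext
        simp [finProdFinEquiv]
        ring
      rw [h1]
      simp only [w, Equiv.symm_apply_apply]
    have hw' : ∀ i < Mz, kv D.b (k + i * D.n) (envT a₀ (U x w)) = t' i := by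
      intro i hi
      rw [hw i (by omega), hτ1 i hi]
    have hZi : ∀ i < Mz, Z (fun l => D.α ^ e l) i = D.α ^ e i := by
      intro i hi
      simp only [Z, hi, dif_pos]
    obtain ⟨y, hy⟩ := (hF a₀ (U x w)).1 (by
      refine ⟨fun l => D.α ^ e l, ?_, ?_, ?_⟩
      · have hRR := hR1 t' (fun i => t' (N + i)) (by
          intro i hi
          have h1 : e i = E i := he1 i (by omega)
          rw [← h1]; exact ht2 i) (by
          intro i hi
          rw [← he2 i hi]; exact ht2 (N + i))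
        refine RD.ReadX.congr D (by omega) ?_ ?_ ?_ hRR
        · intro i hi
          have h1 := g6 i hi
          show algebraMap ℚ K ((X i : ℚ) - X (k + i)) = algebraMap ℚ K (envT a₀ (U x w) i)
          rw [ev1 x w i hi, hx ⟨i, hi⟩, hX1 i (by omega), hX1 (k + i) (by omega), ← haa ⟨i, hi⟩]
          show algebraMap ℚ K ((bN i : ℚ) - bN (k + i)) = algebraMap ℚ K ((aa i : ℤ) : ℚ)
          rw [← h1]
          push_cast
          rfl
        · intro i hi
          refine ⟨(hw' i (by omega)).symm, ?_⟩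
          rw [hZi i (by omega), he1 i (by omega)]
        · intro i hi
          refine ⟨(hw' (N + i) (by omega)).symm, ?_⟩
          rw [hZi (N + i) (by omega), he2 i hi]
      · intro l hl
        obtain rfl | rfl : l = 0 ∨ l = 1 := by omega
        · have h1 := hEj (k + k) (by omega)
          rw [hX1 (k + k) (by omega), g3] at h1
          have h2 := hL₁ (t' N₂) (t' (N₂ + 1)) (t' (N₂ + 2)) (t' (N₂ + 3))
            (by rw [← f0]; exact ht2 _) (by rw [← f1]; exact ht2 _) (by rw [← f2]; exact ht2 _)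
            (by rw [← f3]; exact ht2 _)
          simp only [Nat.mul_zero, Nat.add_zero]
          rw [hw' N₂ (by omega), hw' (N₂ + 1) (by omega), hw' (N₂ + 2) (by omega),
            hw' (N₂ + 3) (by omega), hZi κ (by omega), hZi (κ + 2 + (k + k)) (by omega),
            hZi N₂ (by omega), hZi (N₂ + 1) (by omega), hZi (N₂ + 2) (by omega),
            hZi (N₂ + 3) (by omega), he1 κ (by omega), he1 (κ + 2 + (k + k)) (by omega),
            f0, f1, f2, f3, hEκ, h1]
          exact h2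
        · have h1 := hEj (k + k + 1) (by omega)
          rw [hX1 (k + k + 1) (by omega), g4] at h1
          have h2 := hL₂ (t' (N₂ + 4)) (t' (N₂ + 4 + 1)) (t' (N₂ + 4 + 2)) (t' (N₂ + 4 + 3))
            (by rw [← f4]; exact ht2 _) (by rw [← f5]; exact ht2 _) (by rw [← f6]; exact ht2 _)
            (by rw [← f7]; exact ht2 _)
          simp only [Nat.mul_one]
          rw [hw' (N₂ + 4) (by omega), hw' (N₂ + 4 + 1) (by omega), hw' (N₂ + 4 + 2) (by omega),
            hw' (N₂ + 4 + 3) (by omega), hZi κ (by omega), hZi (κ + 2 + (k + k + 1)) (by omega),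
            hZi (N₂ + 4) (by omega), hZi (N₂ + 4 + 1) (by omega), hZi (N₂ + 4 + 2) (by omega),
            hZi (N₂ + 4 + 3) (by omega), he1 κ (by omega), he1 (κ + 2 + (k + k + 1)) (by omega),
            f4, f5, f6, f7, hEκ, h1]
          exact h2
      · intro i hi
        have h1 := hτ2 ⟨i, hi⟩
        simp only at h1
        rw [hw (Mz + i) (by omega), h1, ev1 x w i hi, hx ⟨i, hi⟩, hV1 ⟨i, hi⟩,
          hZi N₂ (by omega), hZi (N₂ + 4) (by omega), f0, f4, ← zpow_sub₀ D.hα,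
          ← Nat.cast_sub hb.le, zpow_natCast])
    refine ⟨w, fun j => (y j : ℚ), fun i => ?_, fun j => hR' _, ?_⟩
    · have h1 := (finProdFinEquiv.symm i).1.2
      exact hτR _ h1 _
    · rw [key]
      exact hy
  · -- soundness
    rintro ⟨w, y, hy, -, h⟩
    rw [key] at h
    obtain ⟨z, hz1, hz2, hz3⟩ := (hF a₀ _).2 ⟨_, h⟩
    have hwR : ∀ i < Mu, ∀ j, D.b.repr (kv D.b (k + i * D.n) (envT a₀ (U x w))) j ∈ R := by
      intro i hi j
      rw [ekv x _ i hi, Basis.repr_sum_self]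
      exact hy _
    have hadm : ∀ i < Mu, D.Adm (kv D.b (k + i * D.n) (envT a₀ (U x w))) :=
      fun i hi => hok.1 _ (hwR i hi)
    obtain ⟨W, X, hW1, hW2, hzκ, hzX, hX, hfin⟩ := hS P hCd (by omega) hκ2 (le_of_eq hc₀.symm)
      (by omega) (envT a₀ (U x w)) _ _ _ _ (fun i hi => hadm i (by omega))
      (fun i hi => hadm (N + i) (by omega)) hz1
    have hlink : ∀ l < 2, ∃ a : ℕ, Z z (N₂ + 4 * l) = D.α ^ ((codeN D.p D.u0 D.e a : ℕ) : ℤ) ∧
        X (k + k + l) = codeN D.p D.u0 D.e a := by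
      intro l hl
      have hLi := hz2 l hl
      rw [hzκ] at hLi
      obtain ⟨a, ha1, ha2⟩ := D.link_sound hW1 hW2 (hadm _ (by omega)) (hadm _ (by omega))
        (hadm _ (by omega)) (hadm _ (by omega)) hLi
      refine ⟨a, ha1, ?_⟩
      have h1 := hzX (k + k + l) (by omega)
      rw [ha2] at h1
      have h2 := D.zpow_inj h1
      have h3 : D.p ^ (W + 1) * codeN D.p D.u0 D.e a = D.p ^ (W + 1) * X (k + k + l) := by
        exact_mod_cast h2
      exact (Nat.eq_of_mul_eq_mul_left (pow_pos D.hp.pos _) h3).symm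
    obtain ⟨b₁, hb₁, hX₁⟩ := hlink 0 (by omega)
    obtain ⟨b₂, hb₂, hX₂⟩ := hlink 1 (by omega)
    rw [← hX₁] at hb₁
    rw [← hX₂] at hb₂
    simp only [Nat.mul_zero, Nat.add_zero, Nat.mul_one] at hb₁ hb₂
    rw [hP X] at hX
    obtain ⟨hm1, hm2, hm3⟩ := (hP₀ (fun i : Fin (k + k + 3) => X i)).2
      ⟨fun j => X (k + k + 3 + j), hX⟩
    have hm2' : X (k + k + 1) < X (k + k) := hm2
    have hm3' : C * (A + 1) ^ (X (k + k) + 1) ≤ X (k + k + 2) := hm3
    have hm1' : (fun i : Fin k => ((X i : ℕ) : ℤ) - ((X (k + i) : ℕ) : ℤ)) ∈ S := hm1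
    have hbd : ∀ i < k, (envT a₀ (U x w) i).num.natAbs ≤ X (k + k + 2) ∧
        (envT a₀ (U x w) i).den ≤ X (k + k + 2) := by
      intro i hi
      have h1 := hz3 i hi
      rw [hb₁, hb₂, ← zpow_sub₀ D.hα, ← Nat.cast_sub hm2'.le, zpow_natCast] at h1
      exact D.xbound hA hB (J := X (k + k) - X (k + k + 1)) (by omega)
        (B := X (k + k)) (by omega) hm3' (fun j => hok.2 _ (hwR (Mz + i) (by omega) j)) h1
    have hxi := hfin (k + k + 2) (by omega) hbd
    refine ⟨_, hm1', fun i => ?_⟩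
    have h1 := hxi i i.2
    rw [ev1 x w i i.2] at h1
    rw [show x i = x ⟨i, i.2⟩ from rfl, h1]
    push_cast
    rfl

end Vale.Agent.P027.T3
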