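import Vale.Agent.P027.R3.H18.Link
import Vale.Agent.P027.R3.H124.Main3

set_option linter.all false

/-! The Diophantine model for abstract data. -/

namespace Vale.Agent.P027.T3

open Vale.Agent.P027 MvPolynomial Module

/-- every recursively enumerable relation between integers is Diophantine over all `R`, `R'`, when
the integers are coded by the tuples `c a` -/
def FormM (p n : ℕ) (c : ℤ → Fin n → ℚ) (ok : Set ℚ → Prop) : Prop :=
  ∀ (k : ℕ) (S : Set (Fin k → ℤ)), REPred (fun a => a ∈ S) →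
    ∃ (m r : ℕ) (F : MvPolynomial ((Fin k × Fin n) ⊕ Fin m ⊕ Fin r) ℤ), ∀ R R' : Set ℚ,
      (∀ (z : ℤ) (j : ℕ), (z : ℚ) / (p : ℚ) ^ j ∈ R) → ok R → (∀ z : ℤ, (z : ℚ) ∈ R') →
      ∀ x : Fin k × Fin n → ℚ,
      ((∃ a ∈ S, ∀ i j, x (i, j) = c (a i) j) ↔
        ∃ (u : Fin m → ℚ) (y : Fin r → ℚ), (∀ i, u i ∈ R) ∧ (∀ j, y j ∈ R') ∧
          aeval (Sum.elim x (Sum.elim u y)) F = 0)

variable {K : Type} [Field K] [Algebra ℚ K] (D : RD K)

namespace RD

/-- the point which codes an integer -/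
def cpt (a : ℤ) : K := D.α ^ ((codeN D.p D.u0 D.e (Encodable.encode a) : ℕ) : ℤ)

/-- the coordinates of the point which codes an integer -/
noncomputable def cc (a : ℤ) : Fin D.n → ℚ := fun j => D.b.repr (D.cpt a) j

theorem cpt_inj {a b : ℤ} (h : D.cpt a = D.cpt b) : a = b := by
  unfold cpt at h
  have h1 := D.zpow_inj h
  have h2 : codeN D.p D.u0 D.e (Encodable.encode a) = codeN D.p D.u0 D.e (Encodable.encode b) := by
    exact_mod_cast h1
  exact Encodable.encode_injective (codeN_inj D.hp.two_le D.hu0 h2)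

theorem cc_inj : Function.Injective D.cc := by
  intro a b h
  apply D.cpt_inj
  apply D.b.repr.injective
  ext j
  exact congrFun h j

open Vale.Agent.P027.T2 in
theorem formM : FormM D.p D.n D.cc (fun R => ∀ t : K, (∀ j, D.b.repr t j ∈ R) → D.Adm t) := by
  intro k S hS
  obtain ⟨m, P₀, hP₀⟩ := dprm (re_dec (p := D.p) (u := D.u0) (e := D.e) hS)
  -- the polynomial without parameters
  obtain ⟨P, hPdef⟩ : ∃ P : MvPolynomial (Fin 0 ⊕ Fin (k + m)) ℤ, P = rename
    (Sum.elim (fun i => Sum.inr (Fin.castAdd m i)) (fun j => Sum.inr (Fin.natAdd k j))) P₀ :=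
    ⟨_, rfl⟩
  have hP : ∀ X : Fin (k + m) → ℕ, eval (Sum.elim (fun i : Fin 0 => (((fun _ => 0 :
      Fin 0 → ℕ) i : ℕ) : ℤ)) (fun j => (X j : ℤ))) P =
      eval (Sum.elim (fun i => ((X (Fin.castAdd m i) : ℕ) : ℤ))
        (fun j => ((X (Fin.natAdd k j) : ℕ) : ℤ))) P₀ := by
    intro X
    rw [hPdef, eval_rename]
    congr 2
    funext i
    rcases i with i | i <;> rfl
  obtain ⟨C, d, hCd⟩ := eval_bound P
  obtain ⟨κ, hκ⟩ : ∃ κ, κ = D.n * (d + 1) := ⟨_, rfl⟩
  have hκ2 : D.n * (d + 1) ≤ 2 ^ κ := by rw [← hκ]; exact Nat.lt_two_pow_self.le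
  obtain ⟨c₀, hc₀⟩ : ∃ c₀, c₀ = C * D.a0 ^ d + 1 := ⟨_, rfl⟩
  obtain ⟨N, hN⟩ : ∃ N, N = κ + 2 + (k + m) := ⟨_, rfl⟩
  obtain ⟨N₂, hN₂⟩ : ∃ N₂, N₂ = N + (κ + 2) := ⟨_, rfl⟩
  obtain ⟨M, hM⟩ : ∃ M, M = N₂ + 4 * k := ⟨_, rfl⟩
  let Z : (Fin M → K) → ℕ → K := fun y i => if h : i < M then y ⟨i, h⟩ else 1
  let T : (Fin M → K) → (ℕ → ℚ) → Prop := fun y v =>
    D.Read P κ c₀ (fun _ : Fin 0 => (1 : K)) (fun _ : Fin 0 => (1 : K))
      (fun i => kv D.b (k * D.n + i * D.n) v) (fun i => Z y i)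
      (fun i => kv D.b (k * D.n + (N + i) * D.n) v) (fun i => Z y (N + i)) ∧
    ∀ i < k, D.Link (Z y κ) (Z y (κ + 2 + i)) (kv D.b (k * D.n + (N₂ + 3 * k + i) * D.n) v)
      (kv D.b (i * D.n) v) (kv D.b (k * D.n + (N₂ + i) * D.n) v) (Z y (N₂ + i))
      (kv D.b (k * D.n + (N₂ + k + i) * D.n) v) (Z y (N₂ + k + i))
      (kv D.b (k * D.n + (N₂ + 2 * k + i) * D.n) v) (Z y (N₂ + 2 * k + i))
  have hT : Dio (fun v => ∃ y, T y v) := by
    refine exKN (b := D.b) ?_
    have hZ : ∀ i, FnK D.b (fun v => Z (fun l : Fin M => kv D.b (l * D.n) v) i) := by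
      intro i
      by_cases hi : i < M
      · exact (fnK_kv (b := D.b) (i * D.n)).congr (fun v => by simp [Z, hi])
      · exact (FnK.const (b := D.b) 1).congr (fun v => by simp [Z, hi])
    refine Dio.and ?_ ?_
    · exact D.dio_read P κ c₀ (A := fun _ _ => 1) (C := fun _ _ => 1) (fun i => FnK.const 1)
        (fun i => FnK.const 1) (fun i => (fnK_kv _).dr _) (fun i => hZ i)
        (fun i => (fnK_kv _).dr _) (fun i => hZ (N + i))
    · exact K2.Dio.forall_lt (fun i => D.dio_link (hZ _) (hZ _) ((fnK_kv _).dr _)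
        ((fnK_kv _).dr _) ((fnK_kv _).dr _) (hZ _) ((fnK_kv _).dr _) (hZ _) ((fnK_kv _).dr _)
        (hZ _)) _
  obtain ⟨r, F, hF⟩ := pack (k := 0) (m := k * D.n + M * D.n) hT
  obtain ⟨a₀, ha₀⟩ : ∃ a₀ : Fin 0 → ℤ, a₀ = fun _ => 0 := ⟨_, rfl⟩
  -- the environment
  obtain ⟨U, hU⟩ : ∃ U : (Fin k × Fin D.n → ℚ) → (Fin (M * D.n) → ℚ) → (Fin (k * D.n + M * D.n) → ℚ),
      ∀ x w, U x w = Fin.append (fun l => x (finProdFinEquiv.symm l)) w := ⟨_, fun _ _ => rfl⟩
  have hlt : ∀ (L i : ℕ) (hi : i < L) (j : Fin D.n), i * D.n + j < L * D.n := by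
    intro L i hi j
    calc i * D.n + j < i * D.n + D.n := by omega
      _ = (i + 1) * D.n := by ring
      _ ≤ L * D.n := Nat.mul_le_mul_right _ hi
  have ekv1 : ∀ (x : Fin k × Fin D.n → ℚ) (w : Fin (M * D.n) → ℚ) (i : ℕ) (hi : i < k),
      kv D.b (i * D.n) (envT a₀ (U x w)) = ∑ j : Fin D.n, x (⟨i, hi⟩, j) • D.b j := by
    intro x w i hi
    unfold kv
    refine Finset.sum_congr rfl (fun j _ => ?_)
    have h3 := hlt k i hi j
    have h4 : i * D.n + j < k * D.n + M * D.n := by omega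
    have h5 : (⟨i * D.n + j, h4⟩ : Fin (k * D.n + M * D.n)) =
        Fin.castAdd (M * D.n) (finProdFinEquiv (⟨i, hi⟩, j)) := by
      apply Fin.ext
      simp [finProdFinEquiv]
      ring
    simp only [envT, Nat.not_lt_zero, dif_neg, not_false_eq_true, Nat.sub_zero, h4, dif_pos]
    rw [h5, hU, Fin.append_left, Equiv.symm_apply_apply]
  have ekv2 : ∀ (x : Fin k × Fin D.n → ℚ) (w : Fin (M * D.n) → ℚ) (i : ℕ) (hi : i < M),
      kv D.b (k * D.n + i * D.n) (envT a₀ (U x w)) =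
        ∑ j : Fin D.n, w ⟨i * D.n + j, hlt M i hi j⟩ • D.b j := by
    intro x w i hi
    unfold kv
    refine Finset.sum_congr rfl (fun j _ => ?_)
    have h3 := hlt M i hi j
    have h4 : k * D.n + i * D.n + j < k * D.n + M * D.n := by omega
    have h5 : (⟨k * D.n + i * D.n + j, h4⟩ : Fin (k * D.n + M * D.n)) =
        Fin.natAdd (k * D.n) ⟨i * D.n + j, h3⟩ := by
      apply Fin.ext
      simp
      ring
    simp only [envT, Nat.not_lt_zero, dif_neg, not_false_eq_true, Nat.sub_zero, h4, dif_pos]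
    rw [h5, hU, Fin.append_right]
  -- the final polynomial
  let φ : Fin 0 ⊕ Fin (k * D.n + M * D.n) ⊕ Fin r → (Fin k × Fin D.n) ⊕ Fin (M * D.n) ⊕ Fin r :=
    Sum.elim (fun i => i.elim0) (Sum.elim
      (Fin.addCases (fun l => Sum.inl (finProdFinEquiv.symm l))
        (fun l => Sum.inr (Sum.inl l)))
      (fun l => Sum.inr (Sum.inr l)))
  have key : ∀ (x : Fin k × Fin D.n → ℚ) (w : Fin (M * D.n) → ℚ) (y : Fin r → ℚ),
      aeval (Sum.elim x (Sum.elim w y)) (rename φ F) =
      aeval (Sum.elim (fun i => ((a₀ i : ℤ) : ℚ)) (Sum.elim (U x w) y)) F := by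
    intro x w y
    rw [aeval_rename]
    congr 2
    funext i
    rcases i with i | i | i
    · exact i.elim0
    · simp only [Sum.elim_inr, Sum.elim_inl, Function.comp_apply, hU]
      refine Fin.addCases (fun l => ?_) (fun l => ?_) i
      · simp only [φ, Sum.elim_inr, Sum.elim_inl, Fin.addCases_left, Fin.append_left]
      · simp only [φ, Sum.elim_inr, Sum.elim_inl, Fin.addCases_right, Fin.append_right]
    · simp only [φ, Function.comp_apply, Sum.elim_inr]
  refine ⟨M * D.n, r, rename φ F, fun R R' hR hok hR' x => ⟨?_, ?_⟩⟩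
  · -- completeness
    rintro ⟨a, ha, hx⟩
    obtain ⟨A, hA⟩ : ∃ A : ℕ → ℕ, ∀ i : Fin k, A i = Encodable.encode (a i) :=
      ⟨fun i => if h : i < k then Encodable.encode (a ⟨i, h⟩) else 0, fun i => by simp⟩
    have hmem : (fun i : Fin k => codeN D.p D.u0 D.e (A i)) ∈ {b : Fin k → ℕ |
        (fun i => Denumerable.ofNat ℤ (decN D.p D.u0 D.e (b i))) ∈ S} := by
      show (fun i : Fin k => Denumerable.ofNat ℤ (decN D.p D.u0 D.e
        (codeN D.p D.u0 D.e (A i)))) ∈ S
      have : (fun i : Fin k => Denumerable.ofNat ℤ (decN D.p D.u0 D.e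
          (codeN D.p D.u0 D.e (A i)))) = a := by
        funext i
        rw [dec_code D.hp.two_le D.hu0, hA, Denumerable.ofNat_encode]
      rw [this]; exact ha
    obtain ⟨x₀, hx₀⟩ := (hP₀ _).1 hmem
    obtain ⟨X, hX1, hX2⟩ : ∃ X : Fin (k + m) → ℕ,
        (∀ i, X (Fin.castAdd m i) = codeN D.p D.u0 D.e (A i)) ∧
        ∀ j, X (Fin.natAdd k j) = x₀ j :=
      ⟨Fin.append (fun i => codeN D.p D.u0 D.e (A i)) x₀, fun i => Fin.append_left _ _ i,
        fun j => Fin.append_right _ _ j⟩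
    have hPX := hP X
    simp only [hX1, hX2] at hPX
    rw [hx₀] at hPX
    obtain ⟨W, E, J, hW1, hW2, hEκ, hEj, hR1⟩ := D.read_complete' P κ c₀ (fun _ => 0) X hPX
    choose J' JU hL using fun i => D.link_complete hW1 hW2 (A i)
    -- exponents
    obtain ⟨e, he⟩ : ∃ e : ℕ → ℤ, ∀ i, e i = if i < N then (E i : ℤ) else
        if i < N₂ then (J (i - N) : ℤ) else
        if i < N₂ + k then (J' (i - N₂) : ℤ) else
        if i < N₂ + 2 * k then ((D.p ^ W * codeN D.p D.u0 D.e (A (i - (N₂ + k))) : ℕ) : ℤ) else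
        if i < N₂ + 3 * k then (JU (i - (N₂ + 2 * k)) : ℤ) else
          ((codeN D.p D.u0 D.e (A (i - (N₂ + 3 * k))) : ℕ) : ℤ) := ⟨_, fun _ => rfl⟩
    have he1 : ∀ i < N, e i = E i := fun i hi => by rw [he, if_pos hi]
    have he2 : ∀ i < κ + 2, e (N + i) = J i := by
      intro i hi
      rw [he, if_neg (by omega), if_pos (by omega), Nat.add_sub_cancel_left]
    have he3 : ∀ i < k, e (N₂ + i) = J' i := by
      intro i hi
      rw [he, if_neg (by omega), if_neg (by omega), if_pos (by omega), Nat.add_sub_cancel_left]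
    have he4 : ∀ i < k, e (N₂ + k + i) = ((D.p ^ W * codeN D.p D.u0 D.e (A i) : ℕ) : ℤ) := by
      intro i hi
      rw [he, if_neg (by omega), if_neg (by omega), if_neg (by omega), if_pos (by omega),
        Nat.add_sub_cancel_left]
    have he5 : ∀ i < k, e (N₂ + 2 * k + i) = JU i := by
      intro i hi
      rw [he, if_neg (by omega), if_neg (by omega), if_neg (by omega), if_neg (by omega),
        if_pos (by omega), Nat.add_sub_cancel_left]
    have he6 : ∀ i < k, e (N₂ + 3 * k + i) = ((codeN D.p D.u0 D.e (A i) : ℕ) : ℤ) := by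
      intro i hi
      rw [he, if_neg (by omega), if_neg (by omega), if_neg (by omega), if_neg (by omega),
        if_neg (by omega), Nat.add_sub_cancel_left]
    choose t ht1 ht2 using fun i => D.mem_complete (e i)
    let w : Fin (M * D.n) → ℚ := fun l =>
      D.b.repr (t (finProdFinEquiv.symm l).1) (finProdFinEquiv.symm l).2
    have hw : ∀ i < M, kv D.b (k * D.n + i * D.n) (envT a₀ (U x w)) = t i := by
      intro i hi
      rw [ekv2 x w i hi]
      conv_rhs => rw [← D.b.sum_repr (t i)]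
      refine Finset.sum_congr rfl (fun j _ => ?_)
      have h1 : (⟨i * D.n + j, hlt M i hi j⟩ : Fin (M * D.n)) =
          finProdFinEquiv (⟨i, hi⟩, j) := by
        apply Fin.ext
        simp [finProdFinEquiv]
        ring
      rw [h1]
      simp only [w, Equiv.symm_apply_apply]
    have hin : ∀ i < k, kv D.b (i * D.n) (envT a₀ (U x w)) =
        D.α ^ ((codeN D.p D.u0 D.e (A i) : ℕ) : ℤ) := by
      intro i hi
      rw [ekv1 x w i hi]
      have h1 : D.α ^ ((codeN D.p D.u0 D.e (A i) : ℕ) : ℤ) = D.cpt (a ⟨i, hi⟩) := by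
        unfold cpt
        rw [← hA ⟨i, hi⟩]
      rw [h1]
      conv_rhs => rw [← D.b.sum_repr (D.cpt (a ⟨i, hi⟩))]
      refine Finset.sum_congr rfl (fun j _ => ?_)
      rw [hx ⟨i, hi⟩ j]
      rfl
    have hZi : ∀ i < M, Z (fun l => D.α ^ e l) i = D.α ^ e i := by
      intro i hi
      simp only [Z, hi, dif_pos]
    obtain ⟨y, hy⟩ := (hF a₀ (U x w)).1 (by
      refine ⟨fun l => D.α ^ e l, ?_, ?_⟩
      · have hRR := hR1 t (fun i => t (N + i)) (by
          intro i hi
          have h1 : e i = E i := he1 i (by omega)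
          rw [← h1]; exact ht2 i) (by
          intro i hi
          rw [← he2 i hi]; exact ht2 (N + i))
        have q1 : (fun i : Fin 0 => (((fun _ => 0 : Fin 0 → ℕ) i : ℕ) : K)) = fun _ => 1 :=
          Subsingleton.elim _ _
        have q2 : (fun i : Fin 0 => (D.p : K) ^ (fun _ => 0 : Fin 0 → ℕ) i) = fun _ => 1 :=
          Subsingleton.elim _ _
        rw [q1, q2] at hRR
        refine Read.congr D ?_ ?_ hRR
        · intro i hi
          refine ⟨(hw i (by omega)).symm, ?_⟩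
          rw [hZi i (by omega), he1 i (by omega)]
        · intro i hi
          refine ⟨(hw (N + i) (by omega)).symm, ?_⟩
          rw [hZi (N + i) (by omega), he2 i hi]
      · intro i hi
        have hLi := hL i (t (N₂ + 3 * k + i)) (t (N₂ + i)) (t (N₂ + k + i))
          (t (N₂ + 2 * k + i)) (by rw [← he6 i hi]; exact ht2 _)
          (by rw [← he3 i hi]; exact ht2 _) (by rw [← he4 i hi]; exact ht2 _)
          (by rw [← he5 i hi]; exact ht2 _)
        rw [hw (N₂ + 3 * k + i) (by omega), hw (N₂ + i) (by omega), hw (N₂ + k + i) (by omega),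
          hw (N₂ + 2 * k + i) (by omega), hin i hi, hZi κ (by omega), hZi (κ + 2 + i) (by omega),
          hZi (N₂ + i) (by omega), hZi (N₂ + k + i) (by omega), hZi (N₂ + 2 * k + i) (by omega),
          he1 κ (by omega), he1 (κ + 2 + i) (by omega), he3 i hi, he4 i hi, he5 i hi, hEκ]
        have h1 := hEj (Fin.castAdd m ⟨i, hi⟩)
        rw [hX1] at h1
        simp only [Fin.val_castAdd] at h1
        rw [h1]
        exact hLi)
    refine ⟨w, fun j => (y j : ℚ), fun i => ?_, fun j => hR' _, ?_⟩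
    · obtain ⟨z, l, hz⟩ := ht1 (finProdFinEquiv.symm i).1 (finProdFinEquiv.symm i).2
      show D.b.repr (t (finProdFinEquiv.symm i).1) (finProdFinEquiv.symm i).2 ∈ R
      rw [hz]; exact hR z l
    · rw [key]
      exact hy
  · -- soundness
    rintro ⟨w, y, hy, -, h⟩
    rw [key] at h
    obtain ⟨z, hz1, hz2⟩ := (hF a₀ _).2 ⟨_, h⟩
    have hadm : ∀ i < M, D.Adm (kv D.b (k * D.n + i * D.n)
        (envT a₀ (U x w))) := by
      intro i hi
      apply hok
      intro j
      rw [ekv2 x _ i hi, Basis.repr_sum_self]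
      exact hy _
    have q1 : (fun _ : Fin 0 => (1 : K)) = fun i : Fin 0 => (((fun _ => 0 :
        Fin 0 → ℕ) i : ℕ) : K) := Subsingleton.elim _ _
    have q2 : (fun _ : Fin 0 => (1 : K)) = fun i : Fin 0 => (D.p : K) ^ (fun _ => 0 :
        Fin 0 → ℕ) i := Subsingleton.elim _ _
    have hz1' : D.Read P κ c₀ (fun i : Fin 0 => (((fun _ => 0 : Fin 0 → ℕ) i : ℕ) : K))
        (fun i : Fin 0 => (D.p : K) ^ (fun _ => 0 : Fin 0 → ℕ) i)
        (fun i => kv D.b (k * D.n + i * D.n) (envT a₀ (U x w)))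
        (fun i => Z z i)
        (fun i => kv D.b (k * D.n + (N + i) * D.n)
          (envT a₀ (U x w))) (fun i => Z z (N + i)) := by
      rw [← q1, ← q2]; exact hz1
    obtain ⟨W, X, hW1, hW2, hzκ, hzX, hX⟩ := D.read_sound' P hCd hκ2 (le_of_eq hc₀.symm)
      (fun _ => 0) _ _ _ _ (fun i hi => hadm i (by omega))
      (fun i hi => hadm (N + i) (by omega)) hz1'
    have hlink : ∀ i : Fin k, ∃ a : ℕ,
        kv D.b (i * D.n) (envT a₀ (U x w)) =
          D.α ^ ((codeN D.p D.u0 D.e a : ℕ) : ℤ) ∧ X (Fin.castAdd m i) = codeN D.p D.u0 D.e a := by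
      intro i
      have hLi := hz2 i i.2
      rw [hzκ] at hLi
      obtain ⟨a, ha1, ha2⟩ := D.link_sound hW1 hW2 (hadm _ (by omega)) (hadm _ (by omega))
        (hadm _ (by omega)) (hadm _ (by omega)) hLi
      refine ⟨a, ha1, ?_⟩
      have h1 := hzX (Fin.castAdd m i)
      simp only [Fin.val_castAdd] at h1
      rw [ha2] at h1
      have h2 := D.zpow_inj h1
      have h3 : D.p ^ (W + 1) * codeN D.p D.u0 D.e a = D.p ^ (W + 1) * X (Fin.castAdd m i) := by
        exact_mod_cast h2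
      exact (Nat.eq_of_mul_eq_mul_left (pow_pos D.hp.pos _) h3).symm
    choose A hA1 hA2 using hlink
    rw [hP X] at hX
    simp only [hA2] at hX
    have hmem := (hP₀ (fun i => codeN D.p D.u0 D.e (A i))).2 ⟨fun j => X (Fin.natAdd k j), hX⟩
    refine ⟨fun i => Denumerable.ofNat ℤ (A i), ?_, ?_⟩
    · have h1 : (fun i => Denumerable.ofNat ℤ (decN D.p D.u0 D.e
          (codeN D.p D.u0 D.e (A i)))) ∈ S := hmem
      simp only [dec_code D.hp.two_le D.hu0] at h1
      exact h1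
    · intro i j
      have h1 := hA1 i
      rw [ekv1 x _ i i.2] at h1
      have h2 : D.cpt (Denumerable.ofNat ℤ (A i)) = D.α ^ ((codeN D.p D.u0 D.e (A i) : ℕ) : ℤ) := by
        unfold cpt
        rw [Denumerable.encode_ofNat]
      unfold cc
      rw [h2, ← h1, Basis.repr_sum_self]

end RD

end Vale.Agent.P027.T3
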