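import Vale.Agent.P027.R3.H18.ReX
import Vale.Agent.P027.R3.H18.Model

set_option linter.all false

/-! Bounds for heights, and the elements which certify them. -/

namespace Vale.Agent.P027.T3

open Vale.Agent.P027 MvPolynomial Module

theorem psi_map {F G : Type} [CommRing F] [CommRing G] (f : F →+* G) (m t : ℕ) (x : F) :
    psi m t (f x) = f (psi m t x) := by
  unfold psi
  simp only [map_add, map_mul, map_pow, map_natCast]

theorem psi_pos {m : ℕ} (hm : 0 < m) (t : ℕ) (a : ℤ) : 0 < psi m t a := by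
  unfold psi
  have h1 : (0 : ℤ) ≤ a ^ (4 * t) := Even.pow_nonneg ⟨2 * t, by ring⟩ _
  have h2 : (0 : ℤ) ≤ a ^ (2 * t) := Even.pow_nonneg ⟨t, by ring⟩ _
  have h3 : (0 : ℤ) < (m : ℤ) ^ (2 * t) := pow_pos (by exact_mod_cast hm) _
  have h4 : (0 : ℤ) ≤ (m : ℤ) ^ t := pow_nonneg (by positivity) _
  have h5 := mul_nonneg h4 h2
  linarith

variable {K : Type} [Field K] [Algebra ℚ K] (D : RD K)

theorem RD.repr_mul_rat (V : K) (q : ℚ) (j : Fin D.n) :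
    D.b.repr (V * algebraMap ℚ K q) j = D.b.repr V j * q := by
  have h : V * algebraMap ℚ K q = q • V := by
    rw [Algebra.smul_def, mul_comm]
  rw [h, map_smul]
  simp [mul_comm]

theorem natAbs_num_le {z : ℤ} (hz : z ≠ 0) {n : ℕ} (hn : n ≠ 0) :
    ((z : ℚ) / (n : ℚ)).num.natAbs ≤ z.natAbs := by
  have h := Rat.num_dvd z (b := (n : ℤ)) (by exact_mod_cast hn)
  rw [Rat.divInt_eq_div] at h
  push_cast at h
  exact Nat.le_of_dvd (Int.natAbs_pos.2 hz) (Int.natAbs_dvd_natAbs.2 h)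

theorem RD.xbound {okv : ℚ → Prop} {m t C A : ℕ}
    (hA : ∀ (J : ℕ) (i : Fin D.n), ∃ (z : ℤ) (l : ℕ),
      D.b.repr (D.α ^ J - 1) i = (z : ℚ) / (D.p : ℚ) ^ l ∧ |z| ≤ (A : ℤ) ^ (J + 1))
    (hB : HtB okv m t C) {J G B : ℕ} (hJ : 0 < J) (hJB : J ≤ B)
    (hG : C * (A + 1) ^ (B + 1) ≤ G) {V : K} (hV : ∀ j, okv (D.b.repr V j)) {x : ℚ}
    (h : V * psi m t (algebraMap ℚ K x) = D.α ^ J - 1) :
    x.num.natAbs ≤ G ∧ x.den ≤ G := by
  have h0 : D.α ^ J - 1 ≠ 0 := by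
    intro h1
    have h2 : D.α ^ (J : ℤ) = D.α ^ (0 : ℤ) := by
      rw [zpow_natCast, zpow_zero]
      linear_combination h1
    have h3 := D.zpow_inj h2
    omega
  obtain ⟨j, hj⟩ : ∃ j, D.b.repr (D.α ^ J - 1) j ≠ 0 := by
    by_contra hc
    push Not at hc
    apply h0
    apply D.b.repr.injective
    rw [map_zero]
    ext j
    exact hc j
  obtain ⟨z, l, hz1, hz2⟩ := hA J j
  have hpl : D.p ^ l ≠ 0 := (pow_pos D.hp.pos _).ne'
  have hz0 : z ≠ 0 := by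
    rintro rfl
    apply hj
    rw [hz1, Int.cast_zero, zero_div]
  have h1 : D.b.repr V j * psi m t x = (z : ℚ) / ((D.p ^ l : ℕ) : ℚ) := by
    rw [psi_map] at h
    rw [← D.repr_mul_rat, h, hz1]
    push_cast
    rfl
  have h2 : (z : ℚ) / ((D.p ^ l : ℕ) : ℚ) ≠ 0 :=
    div_ne_zero (by exact_mod_cast hz0) (by exact_mod_cast hpl)
  have h3 := natAbs_num_le hz0 hpl
  have h4 : z.natAbs ≤ (A + 1) ^ (B + 1) := by
    have h5 : (z.natAbs : ℤ) ≤ ((A ^ (J + 1) : ℕ) : ℤ) := by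
      rw [Int.natCast_natAbs]
      push_cast
      exact hz2
    have h6 : z.natAbs ≤ A ^ (J + 1) := by exact_mod_cast h5
    calc z.natAbs ≤ A ^ (J + 1) := h6
      _ ≤ (A + 1) ^ (J + 1) := Nat.pow_le_pow_left (by omega) _
      _ ≤ (A + 1) ^ (B + 1) := Nat.pow_le_pow_right (by omega) (by omega)
  have h5 : C * ((z : ℚ) / ((D.p ^ l : ℕ) : ℚ)).num.natAbs ≤ G :=
    le_trans (Nat.mul_le_mul_left _ (h3.trans h4)) hG
  obtain ⟨h6, h7⟩ := hB _ x _ (hV j) h1 h2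
  exact ⟨h6.trans h5, h7.trans h5⟩

theorem RD.exists_V (hDv : D.Divi) {m : ℕ} (hm : 0 < m) (t : ℕ) {k : ℕ} (a : Fin k → ℤ) :
    ∃ L : ℕ, 0 < L ∧ ∀ J : ℕ, L ∣ J → ∀ i, ∃ V : K,
      V * psi m t (algebraMap ℚ K (a i)) = D.α ^ J - 1 ∧
      ∀ j, ∃ (z : ℤ) (l : ℕ), D.b.repr V j = (z : ℚ) / (D.p : ℚ) ^ l := by
  have key : ∀ i, ∃ L : ℕ, 0 < L ∧ ∀ J : ℕ, L ∣ J → ∃ V : K,
      V * psi m t (algebraMap ℚ K (a i)) = D.α ^ J - 1 ∧
      ∀ j, ∃ (z : ℤ) (l : ℕ), D.b.repr V j = (z : ℚ) / (D.p : ℚ) ^ l := by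
    intro i
    have hpos := psi_pos hm t (a i)
    obtain ⟨n, hn⟩ : ∃ n : ℕ, psi m t (a i) = n := ⟨(psi m t (a i)).toNat, by omega⟩
    have hn0 : n ≠ 0 := by
      rintro rfl
      rw [hn] at hpos
      exact lt_irrefl _ hpos
    obtain ⟨s, M', hM', hnM⟩ := Nat.exists_eq_pow_mul_and_not_dvd hn0 D.p D.hp.one_lt.ne'
    have hM0 : 0 < M' := by
      rcases Nat.eq_zero_or_pos M' with h | h
      · exact absurd (h ▸ dvd_zero D.p) hM'
      · exact h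
    obtain ⟨L, hL0, hL⟩ := hDv M' hM0 hM'
    refine ⟨L, hL0, fun J hJ => ?_⟩
    have hq : psi m t (algebraMap ℚ K (a i)) = algebraMap ℚ K (n : ℚ) := by
      rw [psi_map]
      congr 1
      have h1 := psi_map (Int.castRingHom ℚ) m t (a i)
      simp only [eq_intCast] at h1
      rw [h1, hn]
      push_cast
      rfl
    have hnq : (n : ℚ) ≠ 0 := by exact_mod_cast hn0
    refine ⟨(D.α ^ J - 1) * algebraMap ℚ K ((n : ℚ)⁻¹), ?_, fun j => ?_⟩
    · rw [hq, mul_assoc, ← map_mul, inv_mul_cancel₀ hnq, map_one, mul_one]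
    · obtain ⟨z, l, hz⟩ := hL J hJ j
      refine ⟨z, l + s, ?_⟩
      rw [D.repr_mul_rat, hz, hnM]
      have hp0 : (D.p : ℚ) ≠ 0 := by exact_mod_cast D.hp.ne_zero
      have hMq : (M' : ℚ) ≠ 0 := by exact_mod_cast hM0.ne'
      push_cast
      field_simp
      ring
  choose L hL0 hL using key
  refine ⟨∏ i, L i, Finset.prod_pos (fun i _ => hL0 i), fun J hJ i => hL i J ?_⟩
  exact (Finset.dvd_prod_of_mem L (Finset.mem_univ i)).trans hJ

end Vale.Agent.P027.T3
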