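import Vale.Agent.P027.R3.H18.ReadM
import Vale.Agent.P027.R3.H18.Code

set_option linter.all false

/-! The points which code natural numbers, and the link with the reading formula. -/

namespace Vale.Agent.P027.T3

open Vale.Agent.P027 MvPolynomial Module

variable {K : Type} [Field K] [Algebra ℚ K] (D : RD K)

namespace RD

/-- certificate that a point has index `p ^ v` with `u0 ∣ v` and `c ≤ v` -/
def Pt (c : ℕ) (t z s x : K) : Prop :=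
  D.Mem t z ∧ D.Mem s x ∧ z = D.α * x ^ (D.p ^ D.u0 - 1) ∧ D.Ord (z / D.α ^ D.p ^ c) ∧
    D.T (D.tq z / tauQ D.β (D.p ^ D.e))

theorem pt_sound {c : ℕ} {t z s x : K} (ht : D.Adm t) (hs : D.Adm s) (h : D.Pt c t z s x) :
    ∃ v, D.u0 ∣ v ∧ c ≤ v ∧ z = D.α ^ ((D.p ^ v : ℕ) : ℤ) := by
  have hp2 := D.hp.two_le
  obtain ⟨h1, h2, h3, h4, h5⟩ := h
  obtain ⟨E, hE⟩ := D.mem_sound _ _ ht h1
  obtain ⟨j, hj⟩ := D.mem_sound _ _ hs h2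
  rw [hE, ← zpow_natCast, ← zpow_sub₀ D.hα, D.ord_zpow] at h4
  have hpe : 1 ≤ D.p ^ c := Nat.one_le_pow _ _ D.hp.pos
  obtain ⟨N, hN⟩ : ∃ N : ℕ, E = N := ⟨E.toNat, by omega⟩
  rw [hE, hN] at h5
  have hN1 : 1 ≤ N := by omega
  obtain ⟨w, hw⟩ := D.pow_test hN1 h5
  refine ⟨w, ?_, ?_, ?_⟩
  · rw [hE, hj, ← zpow_natCast, ← zpow_mul, mul_comm D.α, ← zpow_add_one₀ D.hα] at h3
    have h6 := D.zpow_inj h3
    rw [hN, hw] at h6
    rw [← TD.dvd_exp_iff hp2, ← Int.natCast_dvd_natCast]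
    refine ⟨j, ?_⟩
    have h7 : 1 ≤ D.p ^ w := Nat.one_le_pow _ _ D.hp.pos
    rw [Nat.cast_sub h7]
    push_cast at h6 ⊢
    linarith
  · have h6 : D.p ^ c ≤ D.p ^ w := by
      rw [← hw]
      omega
    exact (Nat.pow_le_pow_iff_right (by omega)).1 h6
  · rw [hE, hN, hw]

theorem pt_complete {c v : ℕ} (h1 : D.u0 ∣ v) (h2 : c ≤ v) (h3 : D.e ≤ v) :
    ∃ J : ℕ, ∀ t s, D.Mem t (D.α ^ ((D.p ^ v : ℕ) : ℤ)) → D.Mem s (D.α ^ (J : ℤ)) →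
      D.Pt c t (D.α ^ ((D.p ^ v : ℕ) : ℤ)) s (D.α ^ (J : ℤ)) := by
  have hp2 := D.hp.two_le
  obtain ⟨J, hJ⟩ := (TD.dvd_exp_iff hp2).2 h1
  refine ⟨J, fun t s ht hs => ⟨ht, hs, ?_, ?_, ?_⟩⟩
  · rw [← zpow_natCast, ← zpow_mul, mul_comm D.α, ← zpow_add_one₀ D.hα]
    congr 1
    have h4 : 1 ≤ D.p ^ v := Nat.one_le_pow _ _ D.hp.pos
    have h5 : D.p ^ v = J * (D.p ^ D.u0 - 1) + 1 := by
      rw [mul_comm] at hJ
      omega
    rw [h5]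
    push_cast
    ring
  · rw [← zpow_natCast, ← zpow_sub₀ D.hα, D.ord_zpow]
    have : D.p ^ c ≤ D.p ^ v := Nat.pow_le_pow_right D.hp.pos h2
    omega
  · rw [D.tq_nat]
    exact D.pow_complete v h3

/-- the link between the input point `Z` and the code `c` relative to `zκ` -/
def Link (zκ c t' Z s' x' tU zU sU xU : K) : Prop :=
  D.Pt (D.u0 * D.e) t' Z s' x' ∧ D.Pt D.e tU zU sU xU ∧ D.Ord (zU / (D.α * zκ)) ∧
    D.ProdT zκ Z zU ∧ c = zU ^ D.p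

theorem link_sound {W : ℕ} (hW : D.u0 ∣ W) (hWe : D.e ≤ W)
    {c t' Z s' x' tU zU sU xU : K} (h1 : D.Adm t') (h2 : D.Adm s') (h3 : D.Adm tU)
    (h4 : D.Adm sU) (h : D.Link (D.α ^ ((D.p ^ W : ℕ) : ℤ)) c t' Z s' x' tU zU sU xU) :
    ∃ a, Z = D.α ^ ((codeN D.p D.u0 D.e a : ℕ) : ℤ) ∧
      c = D.α ^ ((D.p ^ (W + 1) * codeN D.p D.u0 D.e a : ℕ) : ℤ) := by
  have hp2 := D.hp.two_le
  obtain ⟨l1, l2, l3, l4, l5⟩ := h
  obtain ⟨v, hv1, hv2, hv3⟩ := D.pt_sound h1 h2 l1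
  obtain ⟨y, hy1, hy2, hy3⟩ := D.pt_sound h3 h4 l2
  obtain ⟨v', hv'⟩ := hv1
  have hee : D.e ≤ v' := by
    rw [hv'] at hv2
    exact Nat.le_of_mul_le_mul_left hv2 D.hu0
  refine ⟨v' - D.e, ?_, ?_⟩
  · rw [hv3]
    unfold codeN
    rw [Nat.sub_add_cancel hee, hv']
  · have hlt : W < y := by
      rw [hy3, mul_comm D.α, ← zpow_add_one₀ D.hα, ← zpow_sub₀ D.hα, D.ord_zpow] at l3
      have h5 : D.p ^ W < D.p ^ y := by
        have : ((D.p ^ W : ℕ) : ℤ) < ((D.p ^ y : ℕ) : ℤ) := by linarith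
        exact_mod_cast this
      exact (Nat.pow_lt_pow_iff_right (by omega)).1 h5
    obtain ⟨u, rfl⟩ : ∃ u, y = W + u := ⟨y - W, by omega⟩
    have hdu : D.u0 ∣ u := (Nat.dvd_add_right hW).1 hy1
    rw [hv3, hy3] at l4
    have h1v : 1 ≤ v := by
      have := D.he
      have := D.hu0
      rw [hv']
      exact Nat.mul_pos D.hu0 (by omega)
    have huv := (D.prodT_iff hW ⟨v', hv'⟩ hdu hWe h1v (by omega)).1 l4
    rw [l5, hy3, ← zpow_natCast, ← zpow_mul]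
    congr 1
    unfold codeN
    rw [Nat.sub_add_cancel hee, ← hv', huv]
    push_cast
    ring

theorem link_complete {W : ℕ} (hW : D.u0 ∣ W) (hWe : D.e ≤ W) (a : ℕ) :
    ∃ J' JU : ℕ, ∀ t' s' tU sU, D.Mem t' (D.α ^ ((codeN D.p D.u0 D.e a : ℕ) : ℤ)) →
      D.Mem s' (D.α ^ (J' : ℤ)) →
      D.Mem tU (D.α ^ ((D.p ^ W * codeN D.p D.u0 D.e a : ℕ) : ℤ)) → D.Mem sU (D.α ^ (JU : ℤ)) →
      D.Link (D.α ^ ((D.p ^ W : ℕ) : ℤ))
        (D.α ^ ((D.p ^ (W + 1) * codeN D.p D.u0 D.e a : ℕ) : ℤ)) t'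
        (D.α ^ ((codeN D.p D.u0 D.e a : ℕ) : ℤ)) s' (D.α ^ (J' : ℤ)) tU
        (D.α ^ ((D.p ^ W * codeN D.p D.u0 D.e a : ℕ) : ℤ)) sU (D.α ^ (JU : ℤ)) := by
  have hp2 := D.hp.two_le
  have he := D.he
  have hu0 := D.hu0
  obtain ⟨v, hv⟩ : ∃ v, v = D.u0 * (a + D.e) := ⟨_, rfl⟩
  have hve : D.u0 * D.e ≤ v := by rw [hv]; exact Nat.mul_le_mul_left _ (by omega)
  have hve' : D.e ≤ v := le_trans (Nat.le_mul_of_pos_left _ hu0) hve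
  have hdv : D.u0 ∣ v := ⟨_, hv⟩
  have hc : codeN D.p D.u0 D.e a = D.p ^ v := by unfold codeN; rw [hv]
  have hcU : D.p ^ W * codeN D.p D.u0 D.e a = D.p ^ (W + v) := by rw [hc, pow_add]
  obtain ⟨J', hJ'⟩ := D.pt_complete (c := D.u0 * D.e) hdv hve hve'
  obtain ⟨JU, hJU⟩ := D.pt_complete (c := D.e) (v := W + v) (dvd_add hW hdv) (by omega) (by omega)
  refine ⟨J', JU, ?_⟩
  rw [hcU, hc]
  intro t' s' tU sU h1 h2 h3 h4
  refine ⟨hJ' t' s' h1 h2, hJU tU sU h3 h4, ?_, ?_, ?_⟩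
  · rw [mul_comm D.α, ← zpow_add_one₀ D.hα, ← zpow_sub₀ D.hα, D.ord_zpow]
    have : D.p ^ W < D.p ^ (W + v) := Nat.pow_lt_pow_right (by omega) (by omega)
    omega
  · exact (D.prodT_iff hW hdv hdv hWe (by omega) (by omega)).2 rfl
  · rw [← zpow_natCast, ← zpow_mul]
    congr 1
    push_cast
    ring

theorem dio_pt (c : ℕ) {t z s x : (ℕ → ℚ) → K} (ht : FnK D.b t) (hz : FnK D.b z)
    (hs : FnK D.b s) (hx : FnK D.b x) : Dio (fun v => D.Pt c (t v) (z v) (s v) (x v)) := by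
  unfold Pt
  refine Dio.and (D.dio_mem ht hz) (Dio.and (D.dio_mem hs hx) (Dio.and ?_ (Dio.and ?_ ?_)))
  · exact dioK_eq hz ((FnK.const D.α).mul (hx.pow _))
  · exact D.dio_ord (hz.div (FnK.const (D.α ^ D.p ^ c)))
  · exact D.dio_T ((D.fn_tq hz).div (FnK.const (tauQ D.β (D.p ^ D.e))))

theorem dio_link {zκ c t' Z s' x' tU zU sU xU : (ℕ → ℚ) → K} (h0 : FnK D.b zκ) (h1 : FnK D.b c)
    (h2 : FnK D.b t') (h3 : FnK D.b Z) (h4 : FnK D.b s') (h5 : FnK D.b x') (h6 : FnK D.b tU)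
    (h7 : FnK D.b zU) (h8 : FnK D.b sU) (h9 : FnK D.b xU) :
    Dio (fun v => D.Link (zκ v) (c v) (t' v) (Z v) (s' v) (x' v) (tU v) (zU v) (sU v) (xU v)) := by
  unfold Link
  refine Dio.and (D.dio_pt _ h2 h3 h4 h5) (Dio.and (D.dio_pt _ h6 h7 h8 h9) (Dio.and ?_
    (Dio.and ?_ ?_)))
  · exact D.dio_ord (h7.div ((FnK.const D.α).mul h0))
  · exact D.dio_prodT h0 h3 h7
  · exact dioK_eq h1 (h7.pow _)

end RD

end Vale.Agent.P027.T3
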