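import Vale.Agent.P027.R3.H250.Defs
import Vale.Agent.P027.R2.H955.NormPadic
import Vale.Agent.P027.R2.H18.IntCrit

set_option linter.all false

/-! A generator of a power of the prime ideal of the embedding (N1b). -/

namespace Vale.Agent.P027.T3

open Vale.Agent.P027 Module IsDedekindDomain NumberField R2.H955 nonZeroDivisors

variable {p : ℕ} [hp : Fact p.Prime] {K : Type} [Field K] [NumberField K]

/-- the `i`-th embedding -/
noncomputable def emb (D : Fld p K) (i : ℕ) : K →+* ℚ_[p] :=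
  D.φ.comp ((D.σ ^ i : K ≃ₐ[ℚ] K) : K →+* K)

theorem emb_apply (D : Fld p K) (i : ℕ) (x : K) : emb D i x = D.φ ((D.σ ^ i) x) := rfl

theorem Fld.finrank (D : Fld p K) : Module.finrank ℚ K = 2 * D.m := by
  rw [Module.finrank_eq_card_basis D.bas, Fintype.card_fin]

/-- the powers of `σ` are distinct -/
theorem Fld.inj (D : Fld p K) {i : ℕ} (hi : i < 2 * D.m) (h0 : 0 < i) : D.σ ^ i ≠ 1 := by
  intro h
  haveI := D.gal
  have hcard : Fintype.card (K ≃ₐ[ℚ] K) = 2 * D.m := by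
    rw [← Nat.card_eq_fintype_card, IsGalois.card_aut_eq_finrank, D.finrank]
  have hsurj : Function.Surjective (fun j : Fin i => D.σ ^ (j : ℕ)) := by
    intro τ
    obtain ⟨j, -, hj⟩ := D.gen τ
    refine ⟨⟨j % i, Nat.mod_lt _ h0⟩, ?_⟩
    show D.σ ^ (j % i) = τ
    rw [hj]
    conv_rhs => rw [← Nat.div_add_mod j i, pow_add, pow_mul, h, one_pow, one_mul]
  have h1 := Fintype.card_le_of_surjective _ hsurj
  rw [Fintype.card_fin, hcard] at h1
  omega

/-- norm one detected by the ideal -/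
theorem norm_one_iff {ψ : K →+* ℚ_[p]} {P : HeightOneSpectrum (𝓞 K)}
    (hP : P.asIdeal = padicIdeal ψ) {x : K} (hx : x ≠ 0) : ‖ψ x‖ = 1 ↔ vv P x = 0 := by
  have hlt : ∀ y : K, y ≠ 0 → 0 < vv P y → ‖ψ y‖ < 1 := fun y hy h =>
    norm_lt_one_of_vv_pos hP hy h
  have hgt : vv P x < 0 → 1 < ‖ψ x‖ := by
    intro h
    have h1 := hlt x⁻¹ (inv_ne_zero hx) (by rw [vv_inv]; omega)
    rw [map_inv₀, norm_inv] at h1
    have h2 : 0 < ‖ψ x‖ := norm_pos_iff.2 ((map_ne_zero ψ).2 hx)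
    exact (inv_lt_one₀ h2).1 h1
  constructor
  · intro h
    by_contra hne
    rcases lt_or_gt_of_ne hne with h1 | h1
    · exact (hgt h1).ne' h
    · exact (hlt x hx h1).ne h
  · intro h
    have h1 : P.valuation K x ≤ 1 := (vv_nonneg_iff P x).1 h.ge
    obtain ⟨n, d, hnd⟩ := P.exists_primeCompl_mul_eq_of_integer x h1
    have hd : (d : 𝓞 K) ∉ P.asIdeal := d.2
    have hd0 : (d : 𝓞 K) ≠ 0 := by
      intro h0
      apply hd
      rw [h0]
      exact P.asIdeal.zero_mem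
    have hd0' : ((d : 𝓞 K) : K) ≠ 0 := by simpa using hd0
    have hnd' : x * ((d : 𝓞 K) : K) = (n : K) := hnd
    have hn0 : n ≠ 0 := by
      rintro rfl
      have : x * ((d : 𝓞 K) : K) = 0 := by rw [hnd']; simp
      exact (mul_ne_zero hx hd0') this
    have hvd : vv P ((d : 𝓞 K) : K) = 0 := by
      have h2 := vv_int_nonneg P (d : 𝓞 K)
      have h3 := (vv_int_pos_iff P hd0).not.2 hd
      omega
    have hn : n ∉ P.asIdeal := by
      rw [← vv_int_pos_iff P hn0, ← hnd', vv_mul P hx hd0', hvd, h]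
      omega
    rw [hP, mem_padicIdeal] at hn
    have hd' : (d : 𝓞 K) ∉ padicIdeal ψ := fun h2 => hd ((SetLike.ext_iff.1 hP _).2 h2)
    rw [mem_padicIdeal] at hd'
    have hd1 : ‖ψ ((d : 𝓞 K) : K)‖ = 1 := le_antisymm (padic_norm_le_one ψ _) (not_lt.1 hd')
    have hn1 : ‖ψ ((n : 𝓞 K) : K)‖ = 1 := le_antisymm (padic_norm_le_one ψ _) (not_lt.1 hn)
    rw [← hnd', map_mul, norm_mul, hd1, mul_one] at hn1
    exact hn1

/-- equal ideals give equal absolute values -/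
theorem norm_eq_of_ideal {ψ ψ' : K →+* ℚ_[p]} {P : HeightOneSpectrum (𝓞 K)}
    (hP : P.asIdeal = padicIdeal ψ) (hP' : P.asIdeal = padicIdeal ψ') (x : K) :
    ‖ψ x‖ = ‖ψ' x‖ := by
  rcases eq_or_ne x 0 with rfl | hx
  · simp
  have hψ : ψ x ≠ 0 := (map_ne_zero ψ).2 hx
  have hp0 : (p : ℝ) ≠ 0 := by exact_mod_cast hp.out.ne_zero
  have hpK : (p : K) ≠ 0 := by exact_mod_cast hp.out.ne_zero
  have h1 := Padic.norm_eq_zpow_neg_valuation hψ
  obtain ⟨a, ha⟩ : ∃ a, a = (ψ x).valuation := ⟨_, rfl⟩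
  rw [← ha] at h1
  have h2 : ∀ χ : K →+* ℚ_[p], ‖χ (x * (p : K) ^ (-a))‖ = ‖χ x‖ * (p : ℝ) ^ a := by
    intro χ
    rw [map_mul, map_zpow₀, map_natCast, norm_mul, norm_zpow, Padic.norm_p, inv_zpow, zpow_neg,
      inv_inv]
  have h3 : ‖ψ (x * (p : K) ^ (-a))‖ = 1 := by
    rw [h2, h1, ← zpow_add₀ hp0, neg_add_cancel, zpow_zero]
  have hne : x * (p : K) ^ (-a) ≠ 0 := mul_ne_zero hx (zpow_ne_zero _ hpK)
  have h4 : ‖ψ' (x * (p : K) ^ (-a))‖ = 1 :=
    (norm_one_iff hP' hne).2 ((norm_one_iff hP hne).1 h3)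
  rw [h2] at h3 h4
  have h5 : (p : ℝ) ^ a ≠ 0 := zpow_ne_zero _ hp0
  exact mul_right_cancel₀ h5 (h3.trans h4.symm)

/-- the ideals of two conjugate embeddings are distinct -/
theorem ideal_ne (D : Fld p K) {i : ℕ} (hi : i < 2 * D.m) (h0 : 0 < i) :
    padicIdeal (emb D 0) ≠ padicIdeal (emb D i) := by
  intro h
  have hne := D.inj hi h0
  have hex : ∃ y, (D.σ ^ i) y ≠ y := by
    by_contra hcon
    push Not at hcon
    exact hne (AlgEquiv.ext hcon)
  obtain ⟨y, hy⟩ := hex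
  have hpmem : (p : 𝓞 K) ∈ padicIdeal (emb D 0) := by
    rw [mem_padicIdeal]
    have e : emb D 0 (((p : 𝓞 K)) : K) = (p : ℚ_[p]) := by
      simp
    rw [e]
    exact Padic.norm_p_lt_one
  have hbot : padicIdeal (emb D 0) ≠ ⊥ := by
    intro h1
    rw [h1, Ideal.mem_bot] at hpmem
    exact hp.out.ne_zero (by exact_mod_cast hpmem)
  obtain ⟨P, hP⟩ : ∃ P : HeightOneSpectrum (𝓞 K), P.asIdeal = padicIdeal (emb D 0) :=
    ⟨⟨padicIdeal (emb D 0), padicIdeal_prime _, hbot⟩, rfl⟩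
  have hnorm := norm_eq_of_ideal hP (hP.trans h)
  have hdiff : emb D i y - emb D 0 y ≠ 0 := by
    rw [sub_ne_zero, emb_apply, emb_apply, pow_zero]
    intro h1
    exact hy (D.φ.injective h1)
  obtain ⟨r, hr⟩ := Padic.rat_dense p (emb D 0 y) (norm_pos_iff.2 hdiff)
  have h1 := hnorm (y - (r : K))
  rw [map_sub, map_sub, map_ratCast, map_ratCast] at h1
  have e : emb D i y - (r : ℚ_[p]) = (emb D i y - emb D 0 y) + (emb D 0 y - r) := by ring
  rw [e, Padic.add_eq_max_of_ne (fun h2 => hr.ne h2.symm), max_eq_left hr.le] at h1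
  exact hr.ne h1

/-- N1b: a generator of a power of the prime ideal of the embedding -/
theorem exists_pi (D : Fld p K) : ∃ π : K, IsIntegral ℤ π ∧ Out p π⁻¹ ∧ ‖D.φ π‖ < 1 ∧
    ∀ i, 0 < i → i < 2 * D.m → ‖D.φ ((D.σ ^ i) π)‖ = 1 := by
  classical
  have hpmem : (p : 𝓞 K) ∈ padicIdeal (emb D 0) := by
    rw [mem_padicIdeal]
    have e : emb D 0 (((p : 𝓞 K)) : K) = (p : ℚ_[p]) := by
      simp
    rw [e]
    exact Padic.norm_p_lt_one
  have hbot : padicIdeal (emb D 0) ≠ ⊥ := by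
    intro h1
    rw [h1, Ideal.mem_bot] at hpmem
    exact hp.out.ne_zero (by exact_mod_cast hpmem)
  have hmem0 : padicIdeal (emb D 0) ∈ (Ideal (𝓞 K))⁰ := mem_nonZeroDivisors_of_ne_zero hbot
  obtain ⟨h, hh⟩ : ∃ h, h = Fintype.card (ClassGroup (𝓞 K)) := ⟨_, rfl⟩
  have hh0 : 0 < h := by rw [hh]; exact Fintype.card_pos
  have hprin : (padicIdeal (emb D 0) ^ h).IsPrincipal := by
    have h1 : ClassGroup.mk0 (⟨padicIdeal (emb D 0), hmem0⟩ : (Ideal (𝓞 K))⁰) ^ h = 1 := by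
      rw [hh]; exact pow_card_eq_one
    rw [← map_pow] at h1
    have h2 := (ClassGroup.mk0_eq_one_iff (pow_mem hmem0 h)).1 (by
      rw [← h1]; rfl)
    exact h2
  obtain ⟨π, hπ⟩ := (Submodule.isPrincipal_iff _).1 hprin
  have hπ' : padicIdeal (emb D 0) ^ h = Ideal.span {π} := hπ
  have hmemπ : π ∈ padicIdeal (emb D 0) := by
    have h1 : π ∈ padicIdeal (emb D 0) ^ h := by
      rw [hπ']; exact Ideal.mem_span_singleton_self π
    exact Ideal.pow_le_self hh0.ne' h1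
  refine ⟨(π : K), RingOfIntegers.isIntegral_coe π, ?_, hmemπ, ?_⟩
  · have h1 : (p : 𝓞 K) ^ h ∈ Ideal.span {π} := by
      rw [← hπ']; exact Ideal.pow_mem_pow hpmem h
    obtain ⟨y, hy⟩ := Ideal.mem_span_singleton'.1 h1
    refine ⟨h, ?_⟩
    have hπ0 : (π : K) ≠ 0 := by
      intro h2
      have h3 : π = 0 := by exact_mod_cast h2
      rw [h3, mul_zero] at hy
      exact pow_ne_zero h (by exact_mod_cast hp.out.ne_zero) hy.symm
    have e : (p : K) ^ h * (π : K)⁻¹ = (y : K) := by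
      have h4 := congrArg (algebraMap (𝓞 K) K) hy
      rw [map_mul, map_pow, map_natCast] at h4
      rw [← h4]
      exact mul_inv_cancel_right₀ hπ0 _
    rw [e]
    exact RingOfIntegers.isIntegral_coe y
  · intro i h0 hi
    refine le_antisymm (padic_norm_le_one (emb D i) π) (not_lt.1 fun hlt => ?_)
    have h1 : π ∈ padicIdeal (emb D i) := hlt
    have h2 : padicIdeal (emb D 0) ^ h ≤ padicIdeal (emb D i) := by
      rw [hπ']; exact (Ideal.span_singleton_le_iff_mem _).2 h1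
    have h3 : padicIdeal (emb D 0) ≤ padicIdeal (emb D i) :=
      (padicIdeal_prime (emb D i)).le_of_pow_le h2
    have hmax : (padicIdeal (emb D 0)).IsMaximal :=
      Ring.DimensionLEOne.maximalOfPrime hbot (padicIdeal_prime _)
    exact ideal_ne D hi h0 (hmax.eq_of_le (padicIdeal_prime _).ne_top h3)

end Vale.Agent.P027.T3
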