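import Vale.Agent.P027.R3.H18.Code
import Vale.Agent.P027.R3.H124.SpecX

set_option linter.all false

/-! The recursively enumerable set behind the model of the integers. -/

namespace Vale.Agent.P027.T3

open Vale.Agent.P027

/-- the differences, and two further entries which bound the heights -/
def SX (k C A : ℕ) (S : Set (Fin k → ℤ)) : Set (Fin (k + k + 3) → ℕ) :=
  {b | (fun i : Fin k => ((b ⟨i, by omega⟩ : ℕ) : ℤ) - ((b ⟨k + i, by omega⟩ : ℕ) : ℤ)) ∈ S ∧
    b ⟨k + k + 1, by omega⟩ < b ⟨k + k, by omega⟩ ∧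
    C * (A + 1) ^ (b ⟨k + k, by omega⟩ + 1) ≤ b ⟨k + k + 2, by omega⟩}

theorem re_SX {k C A : ℕ} {S : Set (Fin k → ℤ)} (hS : REPred (fun a => a ∈ S)) :
    REPred (fun b => b ∈ SX k C A S) := by
  have h1 : Primrec (fun (b : Fin (k + k + 3) → ℕ) (i : Fin k) =>
      ((b ⟨i, by omega⟩ : ℕ) : ℤ) - ((b ⟨k + i, by omega⟩ : ℕ) : ℤ)) := by
    refine Primrec.fin_curry.2 (Primrec₂.swap (Primrec.fin_curry₁.2 (fun i => ?_)))
    exact K2.primrec_intsub.comp (Primrec.fin_app.comp Primrec.id (Primrec.const _))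
      (Primrec.fin_app.comp Primrec.id (Primrec.const _))
  have hg : ∀ i : Fin (k + k + 3), Primrec (fun b : Fin (k + k + 3) → ℕ => b i) := fun i =>
    Primrec.fin_app.comp Primrec.id (Primrec.const _)
  have h2 : PrimrecPred (fun b : Fin (k + k + 3) → ℕ =>
      b ⟨k + k + 1, by omega⟩ < b ⟨k + k, by omega⟩ ∧
      C * (A + 1) ^ (b ⟨k + k, by omega⟩ + 1) ≤ b ⟨k + k + 2, by omega⟩) := by
    refine PrimrecPred.and (Primrec.nat_lt.comp (hg _) (hg _)) (Primrec.nat_le.comp ?_ (hg _))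
    exact Primrec.nat_mul.comp (Primrec.const C)
      ((primrec_pow (A + 1)).comp (Primrec.succ.comp (hg _)))
  have h3 := Partrec.comp hS h1.to_comp
  obtain ⟨hdec, h4⟩ := h2
  have h5 := Partrec.cond h4.to_comp h3 Partrec.none
  refine h5.of_eq (fun b => ?_)
  have l0 : k + k < k + k + 3 := by omega
  have l1 : k + k + 1 < k + k + 3 := by omega
  have l2 : k + k + 2 < k + k + 3 := by omega
  by_cases hb : b ⟨k + k + 1, l1⟩ < b ⟨k + k, l0⟩ ∧
      C * (A + 1) ^ (b ⟨k + k, l0⟩ + 1) ≤ b ⟨k + k + 2, l2⟩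
  · rw [decide_eq_true hb]
    simp only [Bool.cond_true]
    apply Part.ext
    intro x
    simp only [Part.mem_assert_iff, SX, Set.mem_setOf_eq]
    constructor
    · rintro ⟨h, h'⟩; exact ⟨⟨h, hb⟩, h'⟩
    · rintro ⟨h, h'⟩; exact ⟨h.1, h'⟩
  · rw [decide_eq_false hb]
    simp only [Bool.cond_false]
    apply Part.ext
    intro x
    simp only [Part.mem_assert_iff, SX, Set.mem_setOf_eq]
    constructor
    · intro h; exact absurd h (Part.notMem_none x)
    · rintro ⟨h, h'⟩; exact absurd h.2 hb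

/-- two codes whose difference is divisible by a given number -/
theorem exists_codes {p u e : ℕ} (hp : 2 ≤ p) (hu : 1 ≤ u) {L : ℕ} (hL : 0 < L) :
    ∃ a₁ a₂ : ℕ, codeN p u e a₂ < codeN p u e a₁ ∧ L ∣ codeN p u e a₁ - codeN p u e a₂ := by
  obtain ⟨x, y, hxy, h⟩ := Finite.exists_ne_map_eq_of_infinite
    (fun a : ℕ => (⟨codeN p u e a % L, Nat.mod_lt _ hL⟩ : Fin L))
  have h1 : codeN p u e x % L = codeN p u e y % L := by
    have := congrArg Fin.val h
    exact this
  have key : ∀ {x y : ℕ}, codeN p u e x % L = codeN p u e y % L → codeN p u e y < codeN p u e x →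
      ∃ a₁ a₂ : ℕ, codeN p u e a₂ < codeN p u e a₁ ∧ L ∣ codeN p u e a₁ - codeN p u e a₂ := by
    intro x y h1 h2
    exact ⟨x, y, h2, (Nat.modEq_iff_dvd' h2.le).1 h1.symm⟩
  rcases Nat.lt_trichotomy (codeN p u e x) (codeN p u e y) with h2 | h2 | h2
  · exact key h1.symm h2
  · exact absurd (codeN_inj hp hu h2) hxy
  · exact key h1 h2

end Vale.Agent.P027.T3
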