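import Mathlib
import Vale.Agent.P027.R3.H124.Forms3

set_option linter.all false

/-! The reading formula over a number field: refined forms of soundness and completeness. -/

namespace Vale.Agent.P027.T3

open Vale.Agent.P027 MvPolynomial Module

variable {K : Type} [Field K] [Algebra ℚ K] (D : RD K)

namespace RD

theorem read_sound' {k m : ℕ} (P : MvPolynomial (Fin k ⊕ Fin m) ℤ) {C d κ c₀ : ℕ}
    (hCd : ∀ g : ℕ, 1 ≤ g → ∀ v : Fin k ⊕ Fin m → ℤ, (∀ i, |v i| ≤ g) → |eval v P| ≤ C * g ^ d)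
    (hκ : D.n * (d + 1) ≤ 2 ^ κ) (hc₀ : C * D.a0 ^ d + 1 ≤ c₀)
    (a : Fin k → ℕ) (t z s x : ℕ → K) (ht : ∀ i < κ + 2 + m, D.Adm (t i))
    (hs : ∀ i < κ + 2, D.Adm (s i))
    (h : D.Read P κ c₀ (fun i => ((a i : ℕ) : K)) (fun i => (D.p : K) ^ a i) t z s x) :
    ∃ (W : ℕ) (X : Fin m → ℕ), D.u0 ∣ W ∧ D.e ≤ W ∧ z κ = D.α ^ ((D.p ^ W : ℕ) : ℤ) ∧
      (∀ j : Fin m, z (κ + 2 + j) = D.α ^ ((D.p ^ (W + 1) * X j : ℕ) : ℤ)) ∧
      eval (Sum.elim (fun i => (a i : ℤ)) (fun j => (X j : ℤ))) P = 0 := by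
  obtain ⟨hmem, hcong, hpow, hchain, ⟨hB1, hB2⟩, hc, hca, hY, hCP⟩ := h
  have hp2 := D.hp.two_le
  -- exponents
  have hE : ∀ i, ∃ E : ℤ, i < κ + 2 + m → z i = D.α ^ E := by
    intro i
    by_cases hi : i < κ + 2 + m
    · obtain ⟨j, hj⟩ := D.mem_sound _ _ (ht i hi) (hmem i hi)
      exact ⟨j, fun _ => hj⟩
    · exact ⟨0, fun h => absurd h hi⟩
  choose E hE using hE
  -- exponents of the ladder
  have hw : ∀ i, ∃ w : ℕ, i < κ + 2 → D.u0 ∣ w ∧ D.e ≤ w ∧ z i = D.α ^ ((D.p ^ w : ℕ) : ℤ) := by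
    intro i
    by_cases hi : i < κ + 2
    · have hzi := hE i (by omega)
      obtain ⟨h1, h2⟩ := hpow i hi
      rw [hzi, ← zpow_natCast, ← zpow_sub₀ D.hα, D.ord_zpow] at h1
      have hpe : 1 ≤ D.p ^ D.e := Nat.one_le_pow _ _ D.hp.pos
      obtain ⟨N, hN⟩ : ∃ N : ℕ, E i = N := ⟨(E i).toNat, by omega⟩
      rw [hzi, hN] at h2
      have hN1 : 1 ≤ N := by omega
      obtain ⟨w, hw⟩ := D.pow_test hN1 h2
      refine ⟨w, fun _ => ⟨?_, ?_, ?_⟩⟩
      · obtain ⟨h3, h4⟩ := hcong i hi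
        obtain ⟨j, hj⟩ := D.mem_sound _ _ (hs i hi) h3
        rw [hzi, hj, ← zpow_natCast, ← zpow_mul, mul_comm D.α, ← zpow_add_one₀ D.hα] at h4
        have h5 := D.zpow_inj h4
        rw [hN, hw] at h5
        rw [← TD.dvd_exp_iff hp2, ← Int.natCast_dvd_natCast]
        refine ⟨j, ?_⟩
        have h6 : 1 ≤ D.p ^ w := Nat.one_le_pow _ _ D.hp.pos
        rw [Nat.cast_sub h6]
        push_cast at h5 ⊢
        linarith
      · have h3 : D.p ^ D.e ≤ D.p ^ w := by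
          rw [← hw]
          omega
        exact (Nat.pow_le_pow_iff_right (by omega)).1 h3
      · rw [hzi, hN, hw]
    · exact ⟨0, fun h => absurd h hi⟩
  choose w hw using hw
  have hlt : ∀ {i j : ℕ}, i < κ + 2 → j < κ + 2 → D.Ord (z j / (D.α * z i)) →
      ∃ u, 1 ≤ u ∧ w j = w i + u := by
    intro i j hi hj h
    rw [(hw i hi).2.2, (hw j hj).2.2, mul_comm D.α, ← zpow_add_one₀ D.hα, ← zpow_sub₀ D.hα,
      D.ord_zpow] at h
    have h1 : D.p ^ w i < D.p ^ w j := by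
      have : ((D.p ^ w i : ℕ) : ℤ) < ((D.p ^ w j : ℕ) : ℤ) := by linarith
      exact_mod_cast this
    have h2 := (Nat.pow_lt_pow_iff_right (by omega)).1 h1
    exact ⟨w j - w i, by omega, by omega⟩
  have hchk : ∀ {i l j : ℕ}, i < κ + 2 → l < κ + 2 → j < κ + 2 → 1 ≤ w l →
      D.Ord (z j / (D.α * z i)) → D.ProdT (z i) (z l) (z j) → w j = w i + w l := by
    intro i l j hi hl hj h1 h2 h3
    obtain ⟨u, hu1, hu⟩ := hlt hi hj h2
    have hdu : D.u0 ∣ u := by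
      have h4 := (hw j hj).1
      rw [hu] at h4
      exact (Nat.dvd_add_right (hw i hi).1).1 h4
    have h5 := (hw j hj).2.2
    rw [hu] at h5
    rw [(hw i hi).2.2, (hw l hl).2.2, h5] at h3
    have := (D.prodT_iff (hw i hi).1 (hw l hl).1 hdu (hw i hi).2.1 h1 hu1).1 h3
    omega
  have hwpos : ∀ i < κ + 2, 1 ≤ w i := fun i hi => le_trans D.he (hw i hi).2.1
  have hstep : ∀ i < κ, w (i + 1) = 2 * w i := by
    intro i hi
    have := hchk (i := i) (l := i) (j := i + 1) (by omega) (by omega) (by omega)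
      (hwpos i (by omega)) (hchain i hi).1 (hchain i hi).2
    omega
  have hwj : ∀ j ≤ κ, w j = 2 ^ j * w 0 := by
    intro j
    induction j with
    | zero => intro _; simp
    | succ j ih =>
      intro hj
      rw [hstep j (by omega), ih (by omega), pow_succ]
      ring
  have hwB : w (κ + 1) = w κ + w 0 := hchk (i := κ) (l := 0) (j := κ + 1) (by omega) (by omega)
    (by omega) (hwpos 0 (by omega)) hB1 hB2
  obtain ⟨γ, hγ⟩ : ∃ γ : ℕ, γ = D.p ^ w 0 := ⟨_, rfl⟩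
  obtain ⟨h, hh⟩ : ∃ h : ℕ, h = D.p ^ w κ := ⟨_, rfl⟩
  have hhγ : h = γ ^ (2 ^ κ) := by
    rw [hh, hγ, hwj κ le_rfl, ← pow_mul]
    ring_nf
  have hBγ : D.p ^ w (κ + 1) = h * γ := by
    rw [hwB, hh, hγ, ← pow_add]
  have hγpos : 1 ≤ γ := by rw [hγ]; exact Nat.one_le_pow _ _ D.hp.pos
  have hhpos : 1 ≤ h := by rw [hh]; exact Nat.one_le_pow _ _ D.hp.pos
  have hz0 : z 0 = D.α ^ (γ : ℤ) := by rw [hγ]; exact (hw 0 (by omega)).2.2
  have hzκ : z κ = D.α ^ (h : ℤ) := by rw [hh]; exact (hw κ (by omega)).2.2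
  have hzB : z (κ + 1) = D.α ^ ((h * γ : ℕ) : ℤ) := by
    rw [← hBγ]; exact (hw (κ + 1) (by omega)).2.2
  -- bounds for the parameters
  have hγC : c₀ ≤ γ := by
    rw [hz0, ← zpow_natCast, ← zpow_sub₀ D.hα, D.ord_zpow] at hc
    omega
  have haγ : ∀ i, a i ≤ D.a0 * γ := by
    intro i
    have h1 := hca i
    rw [hz0, D.ord_iff] at h1
    exact_mod_cast h1
  -- the captured place
  obtain ⟨q, hq, Q, hQp, hqQ, hall⟩ := D.cpk_sound _ hCP
  obtain ⟨hqp, hqne⟩ := D.good_prime q hq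
  obtain ⟨u, hu⟩ : ∃ u : D.O, (u : K) = D.β := ⟨⟨D.β, D.hβO⟩, rfl⟩
  obtain ⟨u', hu'⟩ : ∃ u : D.O, (u : K) = D.β⁻¹ := ⟨⟨D.β⁻¹, D.hβO'⟩, rfl⟩
  have huu : u * u' = 1 := by
    apply Subtype.ext
    push_cast
    rw [hu, hu', mul_inv_cancel₀ D.hβ]
  have hbκ : D.Bt (z κ) = D.β ^ h := by rw [hzκ, D.bt_nat]
  have hsum : ∑ i ∈ Finset.range D.p, ((u ^ 2) ^ D.p ^ w κ) ^ i ∈ Q := by
    have h1 : (u' ^ h) ^ (D.p - 1) * ∑ i ∈ Finset.range D.p, ((u ^ 2) ^ D.p ^ w κ) ^ i ∈ Q := by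
      apply hall
      have e1 : (((u' ^ h) ^ (D.p - 1) * ∑ i ∈ Finset.range D.p, ((u ^ 2) ^ D.p ^ w κ) ^ i :
          D.O) : K) = D.kap (z κ) := by
        unfold kap
        push_cast
        rw [hu, hu', hbκ, ← hh, inv_pow, inv_pow, ← pow_mul D.β 2 h, ← pow_mul D.β h 2,
          mul_comm 2 h]
      rw [e1]
      simp [ents]
    rcases hQp.mem_or_mem h1 with h2 | h2
    · exfalso
      apply hQp.ne_top
      rw [Ideal.eq_top_iff_one]
      have h3 : (u ^ h) ^ (D.p - 1) * (u' ^ h) ^ (D.p - 1) = 1 := by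
        rw [← mul_pow, ← mul_pow, huu, one_pow, one_pow]
      rw [← h3]
      exact Q.mul_mem_left _ h2
    · exact h2
  obtain ⟨B, hB⟩ : ∃ B, B = u ^ 2 := ⟨_, rfl⟩
  rw [← hB] at hsum
  have hBK : (B : K) = D.β ^ 2 := by rw [hB]; push_cast; rw [hu]
  obtain ⟨g, hg⟩ : ∃ g : ℕ, g = D.p ^ (w κ + 1) := ⟨_, rfl⟩
  have hord : orderOf (Ideal.Quotient.mk Q B) = g := by
    rw [hg]; exact order_eq D.hp hqp hqne hqQ hsum
  have hgh : g = D.p * h := by rw [hg, hh, pow_succ, mul_comm]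
  have hgpos : 1 ≤ g := by rw [hg]; exact Nat.one_le_pow _ _ D.hp.pos
  have hpow1 : (Ideal.Quotient.mk Q B) ^ g = 1 := by rw [← hord]; exact pow_orderOf_eq_one _
  -- coded integers
  have hcode : ∀ j : Fin m, ∃ X : ℕ, X ≤ γ ∧ D.Bt (z (κ + 2 + j)) ^ 2 = (D.β ^ 2) ^ (g * X) ∧
      z (κ + 2 + j) = D.α ^ ((g * X : ℕ) : ℤ) := by
    intro j
    have hzj := hE (κ + 2 + j) (by omega)
    obtain ⟨h1, h2⟩ := hY j j.2
    rw [hzj, D.ord_zpow] at h1
    obtain ⟨M, hM⟩ : ∃ M : ℕ, E (κ + 2 + j) = M := ⟨(E (κ + 2 + j)).toNat, by omega⟩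
    rw [hM] at hzj
    rw [hzj, hzB, ← zpow_natCast, ← zpow_mul, ← zpow_sub₀ D.hα, D.ord_zpow] at h2
    have h3 : B ^ M - 1 ∈ Q := by
      apply hall
      have e1 : ((B ^ M - 1 : D.O) : K) = D.Bt (z (κ + 2 + j)) ^ 2 - 1 := by
        push_cast
        rw [hBK, hzj, D.bt_nat, ← pow_mul, ← pow_mul, mul_comm]
      rw [e1]
      simp only [ents, List.mem_append, List.mem_map, List.mem_range]
      exact Or.inr ⟨j, j.2, rfl⟩
    have h4 : g ∣ M := by
      rw [← hord]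
      apply orderOf_dvd_of_pow_eq_one
      rw [← Ideal.Quotient.eq_zero_iff_mem, map_sub, map_pow, map_one] at h3
      exact sub_eq_zero.1 h3
    obtain ⟨X, hX⟩ := h4
    refine ⟨X, ?_, ?_, by rw [hzj, ← hX]⟩
    · have h5 : g * X ≤ g * γ := by
        rw [← hX, hgh]
        have h6 : ((M : ℕ) : ℤ) ≤ ((h * γ : ℕ) : ℤ) * (D.p : ℕ) := by linarith
        have h7 : M ≤ h * γ * D.p := by exact_mod_cast h6
        calc M ≤ h * γ * D.p := h7
          _ = D.p * h * γ := by ring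
      exact Nat.le_of_mul_le_mul_left h5 (by omega)
    · rw [hzj, D.bt_nat, ← hX, ← pow_mul, ← pow_mul, mul_comm]
  choose X hXγ hX hXz using hcode
  refine ⟨w κ, X, (hw κ (by omega)).1, (hw κ (by omega)).2.1, (hw κ (by omega)).2.2,
    fun j => by rw [hXz j, hg], ?_⟩
  have hcongr : (q : ℤ) ∣ eval (Sum.elim (fun i => (a i : ℤ)) (fun j => (X j : ℤ))) P := by
    let A : Fin k ⊕ Fin m → D.O := Sum.elim (fun i => ((a i : ℕ) : D.O))
      (fun j => ∑ i ∈ Finset.range (X j), (B ^ g) ^ i)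
    have h1 : aeval A P ∈ Q := by
      apply hall
      have e1 : ((aeval A P : D.O) : K) = aeval (Sum.elim (fun i => ((a i : ℕ) : K))
          (fun j : Fin m => (D.Bt (z (κ + 2 + j)) ^ 2 - 1) / ((D.Bt (z κ) ^ 2) ^ D.p - 1))) P := by
        have e2 := comp_aeval_apply (f := A) (φ := D.O.subtype.toIntAlgHom) P
        rw [RingHom.toIntAlgHom_apply] at e2
        rw [show ((aeval A P : D.O) : K) = D.O.subtype (aeval A P) from rfl, e2]
        congr 2
        funext i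
        rcases i with i | j
        · simp [A]
        · simp only [A, Sum.elim_inr, RingHom.toIntAlgHom_apply, Subring.coe_subtype]
          push_cast
          have h2 : (D.β ^ 2) ^ g ≠ 1 := D.hβ1 g hgpos
          have h3 : (D.Bt (z κ) ^ 2) ^ D.p = (D.β ^ 2) ^ g := by
            rw [hbκ, hgh, ← pow_mul, ← pow_mul, ← pow_mul]
            congr 1
            ring
          rw [hBK, geom_sum_eq h2, hX j, h3, pow_mul]
      rw [e1]
      simp [ents]
    have h2 : ((eval (Sum.elim (fun i => (a i : ℤ)) (fun j => (X j : ℤ))) P : ℤ) :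
        D.O ⧸ Q) = 0 := by
      rw [← T2.aeval_intCast, ← Ideal.Quotient.eq_zero_iff_mem.2 h1]
      have e2 := comp_aeval_apply (f := A) (φ := (Ideal.Quotient.mk Q).toIntAlgHom) P
      rw [RingHom.toIntAlgHom_apply] at e2
      rw [e2]
      congr 2
      funext i
      rcases i with i | j
      · simp [A]
      · simp only [A, Sum.elim_inr, RingHom.toIntAlgHom_apply]
        rw [geom_cong hpow1]
        push_cast
        rfl
    apply int_dvd hqp hqQ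
    rw [← Ideal.Quotient.eq_zero_iff_mem, map_intCast]
    exact h2
  -- the bound
  have hb := hCd (D.a0 * γ) (Nat.mul_pos D.ha0 hγpos)
    (Sum.elim (fun i => (a i : ℤ)) (fun j => (X j : ℤ))) (by
      intro i
      rcases i with i | i
      · simp only [Sum.elim_inl]
        rw [abs_of_nonneg (by positivity)]
        exact_mod_cast haγ i
      · simp only [Sum.elim_inr]
        rw [abs_of_nonneg (by positivity)]
        have h1 : X i ≤ D.a0 * γ := le_trans (hXγ i) (Nat.le_mul_of_pos_left _ D.ha0)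
        exact_mod_cast h1)
  obtain ⟨f, hf1, hfn, hfrob⟩ := D.frob q hq Q hQp hqQ
  have hlt1 : g < q ^ f := by
    rw [← hord]
    exact order_lt hqp hf1 (by rw [hord]; omega) (hfrob B)
  have hlt2 : C * (D.a0 * γ) ^ d < q := by
    have h1 : C * (D.a0 * γ) ^ d < γ ^ (d + 1) := by
      calc C * (D.a0 * γ) ^ d = (C * D.a0 ^ d) * γ ^ d := by rw [mul_pow]; ring
        _ < γ * γ ^ d := Nat.mul_lt_mul_of_pos_right (by omega) (by positivity)
        _ = γ ^ (d + 1) := by rw [pow_succ, mul_comm]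
    have h2 : γ ^ (d + 1) < q := by
      by_contra hcon
      have h3 : q ≤ γ ^ (d + 1) := by omega
      have h4 : q ^ D.n ≤ γ ^ (2 ^ κ) := by
        calc q ^ D.n ≤ (γ ^ (d + 1)) ^ D.n := Nat.pow_le_pow_left h3 _
          _ = γ ^ (D.n * (d + 1)) := by rw [← pow_mul]; ring_nf
          _ ≤ γ ^ (2 ^ κ) := Nat.pow_le_pow_right hγpos hκ
      have h5 : q ^ f ≤ q ^ D.n := Nat.pow_le_pow_right hqp.pos hfn
      have h6 : h ≤ g := by rw [hgh]; exact Nat.le_mul_of_pos_left _ D.hp.pos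
      rw [← hhγ] at h4
      omega
    omega
  apply Int.eq_zero_of_abs_lt_dvd hcongr
  calc |eval (Sum.elim (fun i => (a i : ℤ)) (fun j => (X j : ℤ))) P|
      ≤ C * ((D.a0 * γ : ℕ) : ℤ) ^ d := hb
    _ < q := by exact_mod_cast hlt2

theorem read_complete' {k m : ℕ} (P : MvPolynomial (Fin k ⊕ Fin m) ℤ) (κ c₀ : ℕ)
    (a : Fin k → ℕ) (x : Fin m → ℕ)
    (hP : eval (Sum.elim (fun i => (a i : ℤ)) (fun j => (x j : ℤ))) P = 0) :
    ∃ (W : ℕ) (E J : ℕ → ℕ), D.u0 ∣ W ∧ D.e ≤ W ∧ E κ = D.p ^ W ∧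
      (∀ j : Fin m, E (κ + 2 + j) = D.p ^ (W + 1) * x j) ∧
      ∀ t s : ℕ → K, (∀ i < κ + 2 + m, D.Mem (t i) (D.α ^ (E i : ℤ))) →
      (∀ i < κ + 2, D.Mem (s i) (D.α ^ (J i : ℤ))) →
      D.Read P κ c₀ (fun i => ((a i : ℕ) : K)) (fun i => (D.p : K) ^ a i) t
        (fun i => D.α ^ (E i : ℤ)) s (fun i => D.α ^ (J i : ℤ)) := by
  have hp2 := D.hp.two_le
  obtain ⟨w, hw⟩ : ∃ w : ℕ, w = D.u0 * (D.e + c₀ + ∑ j, x j + ∑ i, a i + 1) := ⟨_, rfl⟩
  have hw_ge : D.e + c₀ + ∑ j, x j + ∑ i, a i + 1 ≤ w := by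
    rw [hw]; exact Nat.le_mul_of_pos_left _ D.hu0
  have hdw : D.u0 ∣ w := ⟨_, hw⟩
  obtain ⟨y, hy⟩ : ∃ y : ℕ → ℕ, ∀ j : Fin m, y j = x j :=
    ⟨fun j => if h : j < m then x ⟨j, h⟩ else 0, fun j => by simp⟩
  have hwlt : w < D.p ^ w := Nat.lt_pow_self (by omega)
  have hxw : ∀ j, x j < D.p ^ w := by
    intro j
    have := Finset.single_le_sum (f := x) (fun i _ => Nat.zero_le _) (Finset.mem_univ j)
    omega
  have haw : ∀ i, a i < D.p ^ w := by
    intro i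
    have := Finset.single_le_sum (f := a) (fun i _ => Nat.zero_le _) (Finset.mem_univ i)
    omega
  obtain ⟨W, hW⟩ : ∃ W : ℕ, W = 2 ^ κ * w := ⟨_, rfl⟩
  have hWw : w ≤ W := by
    rw [hW]; exact Nat.le_mul_of_pos_left _ (by positivity)
  have hdW : D.u0 ∣ W := by rw [hW]; exact hdw.mul_left _
  obtain ⟨h, hh⟩ : ∃ h : ℕ, h = D.p ^ W := ⟨_, rfl⟩
  have hhpos : 1 ≤ h := by rw [hh]; exact Nat.one_le_pow _ _ D.hp.pos
  obtain ⟨g, hg⟩ : ∃ g : ℕ, g = D.p ^ (W + 1) := ⟨_, rfl⟩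
  have hgh : g = D.p * h := by rw [hg, hh, pow_succ, mul_comm]
  have hgpos : 1 ≤ g := by rw [hg]; exact Nat.one_le_pow _ _ D.hp.pos
  obtain ⟨E, hE⟩ : ∃ E, E = D.expE w κ g y := ⟨_, rfl⟩
  have e1 : ∀ i < κ + 1, E i = D.p ^ (2 ^ i * w) := by
    intro i hi; rw [hE]; simp [expE, hi]
  have e0 : E 0 = D.p ^ w := by rw [e1 0 (by omega)]; simp
  have eκ : E κ = h := by rw [e1 κ (by omega), hh, hW]
  have eB : E (κ + 1) = D.p ^ (W + w) := by
    rw [hE, hW]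
    simp [expE]
  have e4 : ∀ j : Fin m, E (κ + 2 + j) = g * x j := by
    intro j
    rw [hE, ← hy j]
    unfold expE
    rw [if_neg (by omega), if_neg (by omega)]
    congr 2
    omega
  have key : ∀ i < κ + 2, ∃ v, D.u0 ∣ v ∧ D.e ≤ v ∧ E i = D.p ^ v := by
    intro i hi
    by_cases hi' : i < κ + 1
    · refine ⟨2 ^ i * w, hdw.mul_left _, ?_, e1 i hi'⟩
      have : w ≤ 2 ^ i * w := Nat.le_mul_of_pos_left _ (by positivity)
      omega
    · have : i = κ + 1 := by omega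
      subst this
      exact ⟨W + w, dvd_add hdW hdw, by omega, eB⟩
  obtain ⟨J, hJ⟩ : ∃ J : ℕ → ℕ, ∀ i, J i = (E i - 1) / (D.p ^ D.u0 - 1) := ⟨_, fun _ => rfl⟩
  have hJE : ∀ i < κ + 2, E i = 1 + J i * (D.p ^ D.u0 - 1) := by
    intro i hi
    obtain ⟨v, hv1, -, hv⟩ := key i hi
    have h1 : D.p ^ D.u0 - 1 ∣ E i - 1 := by rw [hv]; exact (TD.dvd_exp_iff hp2).2 hv1
    rw [hJ, Nat.div_mul_cancel h1]
    have : 1 ≤ E i := by rw [hv]; exact Nat.one_le_pow _ _ D.hp.pos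
    omega
  -- the captured place
  obtain ⟨q, hq, Q, hQp, hqQ, r, hrQ, hr⟩ := D.capt W
  obtain ⟨hqp, hqne⟩ := D.good_prime q hq
  obtain ⟨u, hu⟩ : ∃ u : D.O, (u : K) = D.β := ⟨⟨D.β, D.hβO⟩, rfl⟩
  obtain ⟨u', hu'⟩ : ∃ u : D.O, (u : K) = D.β⁻¹ := ⟨⟨D.β⁻¹, D.hβO'⟩, rfl⟩
  have huu : u * u' = 1 := by
    apply Subtype.ext
    push_cast
    rw [hu, hu', mul_inv_cancel₀ D.hβ]
  rw [← hh] at hr
  have hkap : D.kap (D.α ^ (h : ℤ)) = r := by
    have hX0 : D.β ^ h ≠ 0 := pow_ne_zero _ D.hβ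
    have hX2 : (D.β ^ h) ^ 2 ≠ 1 := by
      rw [← pow_mul, mul_comm, pow_mul]; exact D.hβ1 h hhpos
    have hX3 : D.β ^ h - (D.β ^ h)⁻¹ ≠ 0 := by
      intro h0
      apply hX2
      have h1 := sub_eq_zero.1 h0
      rw [pow_two]
      nth_rewrite 2 [h1]
      exact mul_inv_cancel₀ hX0
    apply mul_right_cancel₀ hX3
    rw [hr]
    unfold kap
    rw [D.bt_nat]
    obtain ⟨Z, hZ⟩ : ∃ Z, Z = D.β ^ h := ⟨_, rfl⟩
    rw [← hZ] at hX0 hX2 ⊢
    have h1 := geom_sum_mul (Z ^ 2) D.p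
    have h2 : Z - Z⁻¹ = Z⁻¹ * (Z ^ 2 - 1) := by field_simp
    rw [h2, mul_assoc, mul_comm Z⁻¹, ← mul_assoc (∑ i ∈ Finset.range D.p, (Z ^ 2) ^ i), h1]
    obtain ⟨p', hp'⟩ : ∃ p', D.p = p' + 1 := ⟨D.p - 1, by omega⟩
    rw [hp', Nat.add_sub_cancel]
    field_simp
    ring
  have hsum : ∑ i ∈ Finset.range D.p, ((u ^ 2) ^ D.p ^ W) ^ i ∈ Q := by
    have h1 : (u' ^ h) ^ (D.p - 1) * ∑ i ∈ Finset.range D.p, ((u ^ 2) ^ D.p ^ W) ^ i ∈ Q := by
      have e1 : (u' ^ h) ^ (D.p - 1) * ∑ i ∈ Finset.range D.p, ((u ^ 2) ^ D.p ^ W) ^ i = r := by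
        apply Subtype.ext
        rw [← hkap]
        unfold kap
        push_cast
        rw [hu, hu', D.bt_nat, ← hh, inv_pow, inv_pow, ← pow_mul D.β 2 h, ← pow_mul D.β h 2,
          mul_comm 2 h]
      rw [e1]
      exact hrQ
    rcases hQp.mem_or_mem h1 with h2 | h2
    · exfalso
      apply hQp.ne_top
      rw [Ideal.eq_top_iff_one]
      have h3 : (u ^ h) ^ (D.p - 1) * (u' ^ h) ^ (D.p - 1) = 1 := by
        rw [← mul_pow, ← mul_pow, huu, one_pow, one_pow]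
      rw [← h3]
      exact Q.mul_mem_left _ h2
    · exact h2
  obtain ⟨B, hB⟩ : ∃ B, B = u ^ 2 := ⟨_, rfl⟩
  rw [← hB] at hsum
  have hBK : (B : K) = D.β ^ 2 := by rw [hB]; push_cast; rw [hu]
  have hord : orderOf (Ideal.Quotient.mk Q B) = g := by
    rw [hg]; exact order_eq D.hp hqp hqne hqQ hsum
  have hpow1 : (Ideal.Quotient.mk Q B) ^ g = 1 := by rw [← hord]; exact pow_orderOf_eq_one _
  refine ⟨W, E, J, hdW, by omega, by rw [eκ, hh], fun j => by rw [e4 j, hg],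
    fun t s ht hs => ⟨ht, ?_, ?_, ?_, ⟨?_, ?_⟩, ?_, ?_, ?_, ?_⟩⟩
  · intro i hi
    refine ⟨hs i hi, ?_⟩
    simp only
    rw [← zpow_natCast, ← zpow_mul, mul_comm D.α, ← zpow_add_one₀ D.hα, hJE i hi]
    congr 1
    push_cast
    ring
  · intro i hi
    simp only
    obtain ⟨v, -, hv2, hv⟩ := key i hi
    refine ⟨?_, ?_⟩
    · rw [← zpow_natCast, ← zpow_sub₀ D.hα, D.ord_zpow, hv]
      have : D.p ^ D.e ≤ D.p ^ v := Nat.pow_le_pow_right D.hp.pos hv2
      omega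
    · rw [D.tq_nat, hv]
      exact D.pow_complete v hv2
  · intro i hi
    simp only
    have h1 : 1 ≤ 2 ^ i * w := Nat.mul_pos (by positivity) (by omega)
    have h2 : 2 ^ (i + 1) * w = 2 ^ i * w + 2 ^ i * w := by ring
    have h3 : w ≤ 2 ^ i * w := Nat.le_mul_of_pos_left _ (by positivity)
    rw [e1 i (by omega), e1 (i + 1) (by omega), h2]
    refine ⟨?_, ?_⟩
    · rw [mul_comm D.α, ← zpow_add_one₀ D.hα, ← zpow_sub₀ D.hα, D.ord_zpow]
      have : D.p ^ (2 ^ i * w) < D.p ^ (2 ^ i * w + 2 ^ i * w) :=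
        Nat.pow_lt_pow_right (by omega) (by omega)
      omega
    · exact (D.prodT_iff (hdw.mul_left _) (hdw.mul_left _) (hdw.mul_left _) (by omega) h1 h1).2 rfl
  · simp only
    rw [eκ, eB, hh, mul_comm D.α, ← zpow_add_one₀ D.hα, ← zpow_sub₀ D.hα, D.ord_zpow]
    have : D.p ^ W < D.p ^ (W + w) := Nat.pow_lt_pow_right (by omega) (by omega)
    omega
  · simp only
    rw [eκ, eB, e0, hh]
    exact (D.prodT_iff hdW hdw hdw (by omega) (by omega) (by omega)).2 rfl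
  · simp only
    rw [e0, ← zpow_natCast, ← zpow_sub₀ D.hα, D.ord_zpow]
    omega
  · intro i
    simp only
    rw [e0, D.ord_iff]
    have h1 := haw i
    have h2 : D.p ^ w ≤ D.a0 * D.p ^ w := Nat.le_mul_of_pos_left _ D.ha0
    have h3 : a i ≤ D.a0 * D.p ^ w := by omega
    exact_mod_cast h3
  · intro j hj
    simp only
    have h1 := e4 ⟨j, hj⟩
    simp only at h1
    rw [h1, eB]
    refine ⟨?_, ?_⟩
    · rw [D.ord_zpow]; positivity
    · rw [← zpow_natCast, ← zpow_mul, ← zpow_sub₀ D.hα, D.ord_zpow]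
      have h2 : g * x ⟨j, hj⟩ ≤ D.p ^ (W + w) * D.p := by
        calc g * x ⟨j, hj⟩ ≤ g * D.p ^ w := Nat.mul_le_mul_left _ (hxw _).le
          _ = D.p ^ (W + w) * D.p := by rw [hg, ← pow_add, ← pow_succ]; congr 1; omega
      have h3 : ((g * x ⟨j, hj⟩ : ℕ) : ℤ) ≤ ((D.p ^ (W + w) : ℕ) : ℤ) * (D.p : ℕ) := by
        exact_mod_cast h2
      linarith
  · apply D.cpk_complete q hq Q hQp hqQ
    intro v hv
    simp only [ents, List.mem_append, List.mem_map, List.mem_range, List.mem_cons,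
      List.not_mem_nil, or_false] at hv
    rcases hv with (hv | hv) | ⟨j, hj, hv⟩
    · refine ⟨r, hrQ, ?_⟩
      rw [hv, eκ, hkap]
    · let A : Fin k ⊕ Fin m → D.O := Sum.elim (fun i => ((a i : ℕ) : D.O))
        (fun j => ∑ i ∈ Finset.range (x j), (B ^ g) ^ i)
      refine ⟨aeval A P, ?_, ?_⟩
      · rw [← Ideal.Quotient.eq_zero_iff_mem]
        have e2 := comp_aeval_apply (f := A) (φ := (Ideal.Quotient.mk Q).toIntAlgHom) P
        rw [RingHom.toIntAlgHom_apply] at e2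
        rw [e2]
        have h2 := T2.aeval_intCast (A := D.O ⧸ Q)
          (Sum.elim (fun i => (a i : ℤ)) (fun j => (x j : ℤ))) P
        rw [hP, Int.cast_zero] at h2
        rw [← h2]
        congr 2
        funext i
        rcases i with i | j
        · simp [A]
        · simp only [A, Sum.elim_inr, RingHom.toIntAlgHom_apply]
          rw [geom_cong hpow1]
          push_cast
          rfl
      · rw [hv]
        have e2 := comp_aeval_apply (f := A) (φ := D.O.subtype.toIntAlgHom) P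
        rw [RingHom.toIntAlgHom_apply] at e2
        rw [show ((aeval A P : D.O) : K) = D.O.subtype (aeval A P) from rfl, e2]
        congr 2
        funext i
        rcases i with i | j
        · simp [A]
        · simp only [A, Sum.elim_inr, RingHom.toIntAlgHom_apply, Subring.coe_subtype]
          push_cast
          have h2 : (D.β ^ 2) ^ g ≠ 1 := D.hβ1 g hgpos
          have h3 : (D.Bt (D.α ^ (E κ : ℤ)) ^ 2) ^ D.p = (D.β ^ 2) ^ g := by
            rw [eκ, D.bt_nat, hgh, ← pow_mul, ← pow_mul, ← pow_mul]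
            congr 1
            ring
          have h4 : D.Bt (D.α ^ (E (κ + 2 + j) : ℤ)) ^ 2 = (D.β ^ 2) ^ (g * x j) := by
            rw [e4 j, D.bt_nat, ← pow_mul, ← pow_mul, mul_comm]
          rw [hBK, geom_sum_eq h2, h4, h3, pow_mul]
    · rw [← hv]
      have h1 := e4 ⟨j, hj⟩
      simp only at h1
      refine ⟨B ^ (g * x ⟨j, hj⟩) - 1, ?_, ?_⟩
      · rw [← Ideal.Quotient.eq_zero_iff_mem, map_sub, map_pow, map_one, pow_mul, hpow1, one_pow,
          sub_self]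
      · push_cast
        rw [hBK, h1, D.bt_nat, ← pow_mul, ← pow_mul, mul_comm]

end RD

end Vale.Agent.P027.T3
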